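import Vale.Agent.P141.H609.HZL

/-!
# P141, line (A): regions 1 and 3 of the gap part with the sharper charge of a C-step

`H609.tzX` and `H609.tzX_lab` with the hypothesis `hκq` weakened: the price of a C-step at the
level `sC` is `max (min (DC / ρ ^ 2) ((cA / sC) ^ 2 * DC)) (√(GA * DC) / sC)`, since the level of
`A` is at most its cap.
-/

namespace Vale.Agent.P141.H555

open Finset Matrix Vale.Agent.P075 Vale.Agent.P141.PL Vale.Agent.P141.PL.H588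
open Vale.Agent.P141.PL.H804 Vale.Agent.P141.H736 Vale.Agent.P141.H958 Vale.Agent.P141.H338
open Vale.Agent.P141.H576 Vale.Agent.P141.H609
open Vale.Agent.P141.H971 (Fam0 FamR)

noncomputable section

open scoped Classical

section fam

variable {N : ℕ} {R : Pt} {X : Finset ℤ} {c : ℤ → ℕ → ℤ} {A B C : ℤ → ℕ → ℤ → ℤ → ℝ}
  {cA cB cC : ℝ} {s : ℤ → ℕ → Finset Pt} {S Y YF : ℤ → (k : ℕ) → Pt → Matrix (Ix k) (Ix k) ℝ}
  {QA QB QC : ℤ → ℕ → ℤ → ℤ → Prop} {ga da db dc : ℤ → ℝ} {GA DA DB DC cP : ℝ}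

/-- The charge of a C-step for light plus flow, family, with the cap of `A` at high levels. -/
theorem v_costX2' (hc : ∀ i ∈ X, Pl (c i))
    (hs : ∀ i ∈ X, ∀ k ∈ Icc 1 N, s i k ⊆ bx3 N R k (c i k)) (hA : 0 < cA) (hC : 0 < cC)
    (capA : ∀ i ∈ X, ∀ k ∈ Icc 1 N, ∀ m ∈ s i k, Cap k m.1 m.2.1 cA (A i k))
    (capC : ∀ i ∈ X, ∀ k ∈ Icc 1 N, ∀ m ∈ s i k, Cap k m.1 m.2.2 cC (C i k)) (hP : 1 ≤ cP)
    (sA : ∀ i ∈ X, S4E N R.1 R.2.1 (QA i) (A i) (ga i) cP)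
    (eC : ∀ i ∈ X, L2E N R.1 R.2.2 (QC i) (C i) (dc i)) (hga : ∑ i ∈ X, ga i ≤ GA)
    (hdc : ∑ i ∈ X, dc i ≤ DC) (hGA : 0 < GA) (hDC : 0 < DC) {a e : ℕ} {qL qF ρ κC : ℝ}
    (hρ : 0 < ρ) (hac : ρ * (cA / 2 ^ (a - 1)) ≤ cC / 2 ^ (e - 1))
    (hqL : ∑ i ∈ X, PH N (s i) cC (C i) (Y i) e ≤ qL)
    (hqF : ∑ i ∈ X, PH N (s i) cC (C i) (YF i) e ≤ qF)
    (hκ : 6 * (√qL + √qF) * √(8800 * cP * max (min (DC / ρ ^ 2)
      ((cA / (cC / 2 ^ (e - 1))) ^ 2 * DC)) (√(GA * DC) / (cC / 2 ^ (e - 1)))) ≤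
      κC) :
    ∑ i ∈ X, VW N (s i) cA cC (A i) (C i)
        (fun k m => (Y i k m + YF i k m) * (bl k (A i k) m.1 m.2.1)ᵀ) a e ≤ κC := by
  have nP : 0 ≤ cP := by linarith
  have nqL : 0 ≤ qL := (sum_nonneg fun i _ => PH_nonneg hC e).trans hqL
  have nqF : 0 ≤ qF := (sum_nonneg fun i _ => PH_nonneg hC e).trans hqF
  have h0 : ∑ i ∈ X, VW N (s i) cA cC (A i) (C i)
      (fun k m => (Y i k m + YF i k m) * (bl k (A i k) m.1 m.2.1)ᵀ) a e ≤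
      ∑ i ∈ X, VW N (s i) cA cC (A i) (C i)
        (fun k m => Y i k m * (bl k (A i k) m.1 m.2.1)ᵀ) a e +
      ∑ i ∈ X, VW N (s i) cA cC (A i) (C i)
        (fun k m => YF i k m * (bl k (A i k) m.1 m.2.1)ᵀ) a e := by
    rw [← sum_add_distrib]
    refine sum_le_sum fun i _ => ?_
    have h := VW_add (N := N) (s := s i) (A := A i) (C := C i) (cA := cA) (cC := cC)
      (fun k m => Y i k m * (bl k (A i k) m.1 m.2.1)ᵀ)
      (fun k m => YF i k m * (bl k (A i k) m.1 m.2.1)ᵀ) a e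
    simp only [← Matrix.add_mul] at h
    exact h
  have h1 := v_costX (Y := Y) hc hs hA hC capA capC hP sA eC hga hdc hGA hDC a e hqL
  have h2 := v_costX (Y := YF) hc hs hA hC capA capC hP sA eC hga hdc hGA hDC a e hqF
  set sA' : ℝ := cA / 2 ^ (a - 1) with hsA
  set sC : ℝ := cC / 2 ^ (e - 1) with hsC
  have pA : 0 < sA' := by positivity
  have pC : 0 < sC := by positivity
  have hr : (sA' / sC) ^ 2 ≤ (ρ ^ 2)⁻¹ := by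
    rw [div_pow, div_le_iff₀ (by positivity), inv_mul_eq_div, le_div_iff₀ (by positivity),
      ← mul_pow]
    exact pow_le_pow_left₀ (by positivity) (by linarith) 2
  have hA' : sA' ≤ cA := div_le_self hA.le (one_le_pow₀ one_le_two)
  have hm : 8800 * cP * max ((sA' / sC) ^ 2 * DC) (√(GA * DC) / sC) ≤
      8800 * cP * max (min (DC / ρ ^ 2) ((cA / sC) ^ 2 * DC)) (√(GA * DC) / sC) := by
    refine mul_le_mul_of_nonneg_left (max_le_max (le_min ?_ ?_) le_rfl) (by positivity)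
    · rw [div_eq_inv_mul DC]
      exact mul_le_mul_of_nonneg_right hr hDC.le
    · exact mul_le_mul_of_nonneg_right (pow_le_pow_left₀ (by positivity)
        (div_le_div_of_nonneg_right hA' pC.le) 2) hDC.le
  have h3 : ∀ {q : ℝ}, 0 ≤ q →
      6 * √(q * (8800 * cP * max ((sA' / sC) ^ 2 * DC) (√(GA * DC) / sC))) ≤
      6 * (√q * √(8800 * cP * max (min (DC / ρ ^ 2) ((cA / sC) ^ 2 * DC))
        (√(GA * DC) / sC))) := fun {q} hq => by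
    rw [← Real.sqrt_mul hq]
    exact mul_le_mul_of_nonneg_left (Real.sqrt_le_sqrt (mul_le_mul_of_nonneg_left hm hq))
      (by norm_num)
  have h4 := h3 nqL
  have h5 := h3 nqF
  refine h0.trans ((add_le_add (h1.trans h4) (h2.trans h5)).trans (le_trans (le_of_eq ?_) hκ))
  ring

/-- **Regions 1 and 3 together, family**: `tzX` with the sharper charge hypothesis. -/
theorem tzX' (hc : ∀ i ∈ X, Pl (c i))
    (hs : ∀ i ∈ X, ∀ k ∈ Icc 1 N, s i k ⊆ bx3 N R k (c i k)) (hA : 0 < cA)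
    (hB : 0 < cB) (hC : 0 < cC)
    (capA : ∀ i ∈ X, ∀ k ∈ Icc 1 N, ∀ m ∈ s i k, Cap k m.1 m.2.1 cA (A i k))
    (capB : ∀ i ∈ X, ∀ k ∈ Icc 1 N, ∀ m ∈ s i k, Cap k m.2.1 m.2.2 cB (B i k))
    (capC : ∀ i ∈ X, ∀ k ∈ Icc 1 N, ∀ m ∈ s i k, Cap k m.1 m.2.2 cC (C i k)) (hP : 1 ≤ cP)
    (hS : ∀ i ∈ X, ∀ k ∈ Icc 1 N, ∀ m ∈ s i k, (1 - (S i k m)ᵀ * S i k m).PosSemidef)
    (sA : ∀ i ∈ X, S4E N R.1 R.2.1 (QA i) (A i) (ga i) cP)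
    (eA : ∀ i ∈ X, L2E N R.1 R.2.1 (QA i) (A i) (da i))
    (eB : ∀ i ∈ X, L2E N R.2.1 R.2.2 (QB i) (B i) (db i))
    (eC : ∀ i ∈ X, L2E N R.1 R.2.2 (QC i) (C i) (dc i)) (hga : ∑ i ∈ X, ga i ≤ GA)
    (hda : ∑ i ∈ X, da i ≤ DA) (hdb : ∑ i ∈ X, db i ≤ DB) (hdc : ∑ i ∈ X, dc i ≤ DC)
    (hGA : 0 < GA) (hDC : 0 < DC) {D Q κ σ ρ σ₀ v w κC : ℝ} {qL qF : ℕ → ℝ}
    (hD : DA + DB ≤ D) (hD' : DA + DC ≤ D) (hσ : 0 < σ) (hρ : 0 < ρ) (hκC : 0 ≤ κC)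
    (hv : ∑ i ∈ X, ∑ k ∈ Icc 1 N, ∑ m ∈ s i k, (4 ^ k : ℝ)⁻¹ *
      (((YL cB (B i) (S i) 0 k m + YF i k m) * (bl k (A i k) m.1 m.2.1)ᵀ) *
        ((YL cB (B i) (S i) 0 k m + YF i k m) * (bl k (A i k) m.1 m.2.1)ᵀ)ᵀ).trace ≤ v)
    (hw : ∑ i ∈ X, ∑ k ∈ Icc 1 N, ∑ m ∈ s i k, (YF i k m * (YF i k m)ᵀ).trace ≤ w)
    (hqL : ∀ e, ∑ i ∈ X, PH N (s i) cC (C i) (YL cB (B i) (S i) 0) e ≤ qL e)
    (hqF : ∀ e, ρ * σ < cC / 2 ^ (e - 1) → ∑ i ∈ X, PH N (s i) cC (C i) (YF i) e ≤ qF e)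
    (hκq : ∀ e, ρ * σ < cC / 2 ^ (e - 1) → 6 * (√(qL e) + √(qF e)) *
      √(8800 * cP * max (min (DC / ρ ^ 2)
      ((cA / (cC / 2 ^ (e - 1))) ^ 2 * DC)) (√(GA * DC) / (cC / 2 ^ (e - 1)))) ≤ κC)
    (hQ : ∀ e, cC / 2 ^ (e - 1) ≤ ρ * σ → 4 * qL e ≤ Q) (hκ0 : 0 ≤ κ) (hσ₀ : 0 ≤ σ₀)
    (hκ : ∀ b e, cB / 2 ^ (b - 1) ≤ σ₀ → cC / 2 ^ (e - 1) ≤ σ₀ →
      ∑ i ∈ X, LP N (s i) cB cC (B i) (C i) (S i) b e ≤
        κ * max (cB / 2 ^ (b - 1)) (cC / 2 ^ (e - 1)) ^ 2)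
    {LA LB LC LC' : ℕ} (lA : cA / 2 ^ (LA - 1) < σ) (lB : cB / 2 ^ (LB - 1) ≤ σ₀)
    (lC : cC / 2 ^ (LC - 1) ≤ σ₀) (lC' : cC / 2 ^ (LC' - 1) ≤ ρ * σ) :
    ∑ i ∈ X, ∑ k ∈ Icc 1 N, ∑ m ∈ s i k, |(2 ^ k : ℝ)⁻¹ *
        (((YL cB (B i) (S i) 0 k m + YF i k m) * (bl k (A i k) m.1 m.2.1)ᵀ) * hd k *
          bl k (C i k) m.1 m.2.2).trace| ≤
      6 * √(v * (8800 * cP * max DC (ρ / σ * √(GA * DC)))) * LA + κC * LC' +
        (κC * LC' + 150 * √(w * ((ρ * σ) ^ 2 * DA + σ ^ 2 * DC)) +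
          (9900 * D * σ + 6 * √(550 * D * Q) * (LB + LC) + 36 * √(550 * D * κ) * σ₀)) := by
  have hV : ∀ a e, ρ * (cA / 2 ^ (a - 1)) < cC / 2 ^ (e - 1) → ρ * σ < cC / 2 ^ (e - 1) →
      ∑ i ∈ X, VW N (s i) cA cC (A i) (C i)
        (fun k m => (YL cB (B i) (S i) 0 k m + YF i k m) * (bl k (A i k) m.1 m.2.1)ᵀ) a e ≤ κC :=
    fun a e h1 h2 => v_costX2' (Y := fun i k m => YL cB (B i) (S i) 0 k m) hc hs hA hC capA capC hP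
      sA eC hga hdc hGA hDC hρ h1.le (hqL e) (hqF e h2) (hκq e h2)
  exact region1X hc hs hA hC capC hP sA eC hga hdc hGA hDC hv hρ hσ hκC
    (fun a e ha => hzX hc hs hA hB hC capA capB capC hS eA eB eC hda hdb hdc hD hD' hκC
      (fun a e ha he => hV a e ((mul_lt_mul_of_pos_left ha hρ).trans he) he) hw
      (fun e he => (sum_le_sum fun i hi => LP_le_PH hC (capC i hi) e).trans (by
        rw [← mul_sum]
        exact (mul_le_mul_of_nonneg_left (hqL e) (by norm_num)).trans (hQ e he)))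
      hκ0 hσ₀ hκ lB lC lC' a e ha)
    (fun a e h1 h2 => hV a e h2 ((mul_le_mul_of_nonneg_left h1 hρ.le).trans_lt h2)) lA lC'

end fam

section lab

variable {N L : ℕ} {R : Pt} {X : Finset ℤ} {c : ℤ → ℕ → ℤ} {A : ℤ → ℕ → ℤ → ℤ → ℝ}
  {B C : ℤ → ℕ → ℤ → ℤ → ℤ → ℝ} {cA cB cC : ℝ} {s : ℤ → ℕ → Finset Pt}
  {S YF : ℤ → (k : ℕ) → Pt → Matrix (Ix k) (Ix k) ℝ} {QA QB QC : ℤ → ℕ → ℤ → ℤ → Prop}
  {GA DA DB DC cP : ℝ}

/-- **Regions 1 and 3 with labels, family**: `tzX_lab` with the sharper charge hypothesis. -/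
theorem tzX_lab' (hc : ∀ i ∈ X, Pl (c i))
    (hs : ∀ i ∈ X, ∀ k ∈ Icc 1 N, s i k ⊆ bx3 N R k (c i k)) (hA : 0 < cA)
    (hB : 0 < cB) (hC : 0 < cC)
    (capA : ∀ i ∈ X, ∀ k ∈ Icc 1 N, ∀ m ∈ s i k, Cap k m.1 m.2.1 cA (A i k))
    (capB : ∀ i ∈ X, ∀ k ∈ Icc 1 N, ∀ m ∈ s i k, CapR L k m.2.1 m.2.2 cB (B i k))
    (capC : ∀ i ∈ X, ∀ k ∈ Icc 1 N, ∀ m ∈ s i k, CapR L k m.1 m.2.2 cC (C i k)) (hP : 1 ≤ cP)
    (hS : ∀ i ∈ X, ∀ k ∈ Icc 1 N, ∀ m ∈ s i k,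
      (1 - (S i (k + L) m)ᵀ * S i (k + L) m).PosSemidef)
    (fA : Fam0 N R.1 R.2.1 X QA A cP GA DA)
    (hB0 : ∀ i ∈ X, B i 0 = 0)
    (pB : ∀ i ∈ X, ∀ l ∈ lbs L, Path N R.2.1 R.2.2 (QB i) (fun k => B i k l))
    (oB : ∑ i ∈ X, ∑ l ∈ lbs L, pwr N R.2.1 R.2.2 (QB i) (fun k => B i k l) ≤ DB)
    (hC0 : ∀ i ∈ X, C i 0 = 0)
    (pC : ∀ i ∈ X, ∀ l ∈ lbs L, Path N R.1 R.2.2 (QC i) (fun k => C i k l))
    (oC : ∑ i ∈ X, ∑ l ∈ lbs L, pwr N R.1 R.2.2 (QC i) (fun k => C i k l) ≤ DC)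
    (hGA : 0 < GA) (hDC : 0 < DC) {D Q κ σ ρ σ₀ v w κC : ℝ} {qL qF : ℕ → ℝ}
    (hD : DA + DB ≤ D) (hD' : DA + DC ≤ D) (hσ : 0 < σ) (hρ : 0 < ρ) (hκC : 0 ≤ κC)
    (hv : ∑ i ∈ X, ∑ k ∈ Icc 1 N, ∑ m ∈ s i k, (4 ^ (k + L) : ℝ)⁻¹ *
      (((hd (k + L) * S i (k + L) m * (bl (k + L) (encR L (B i k)) m.2.1 m.2.2)ᵀ * hd (k + L) +
          YF i (k + L) m) * (bl (k + L) (dup L (A i k)) m.1 m.2.1)ᵀ) *
        ((hd (k + L) * S i (k + L) m * (bl (k + L) (encR L (B i k)) m.2.1 m.2.2)ᵀ * hd (k + L) +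
          YF i (k + L) m) * (bl (k + L) (dup L (A i k)) m.1 m.2.1)ᵀ)ᵀ).trace ≤ v)
    (hw : ∑ i ∈ X, ∑ k ∈ Icc 1 N, ∑ m ∈ s i k,
      (YF i (k + L) m * (YF i (k + L) m)ᵀ).trace ≤ w)
    (hqL : ∀ e, ∑ i ∈ X, (cC / 2 ^ (e - 1)) ^ 2 * ∑ k ∈ Icc 1 N, ∑ m ∈ s i k,
      (phi (gramC (lv cC e * (4 ^ (k + L))⁻¹) (bl (k + L) (encR L (C i k)) m.1 m.2.2)) *
        ((hd (k + L) * S i (k + L) m * (bl (k + L) (encR L (B i k)) m.2.1 m.2.2)ᵀ * hd (k + L)) *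
        (hd (k + L) * S i (k + L) m * (bl (k + L) (encR L (B i k)) m.2.1 m.2.2)ᵀ *
          hd (k + L))ᵀ)).trace ≤ qL e)
    (hqF : ∀ e, ρ * σ < cC / 2 ^ (e - 1) → ∑ i ∈ X, (cC / 2 ^ (e - 1)) ^ 2 *
      ∑ k ∈ Icc 1 N, ∑ m ∈ s i k,
      (phi (gramC (lv cC e * (4 ^ (k + L))⁻¹) (bl (k + L) (encR L (C i k)) m.1 m.2.2)) *
        (YF i (k + L) m * (YF i (k + L) m)ᵀ)).trace ≤ qF e)
    (hκq : ∀ e, ρ * σ < cC / 2 ^ (e - 1) → 6 * (√(qL e) + √(qF e)) *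
      √(8800 * cP * (4 ^ L * max (min (DC / ρ ^ 2)
        ((cA / (cC / 2 ^ (e - 1))) ^ 2 * DC)) (√(GA * DC) / (cC / 2 ^ (e - 1))))) ≤ κC)
    (hQ : ∀ e, cC / 2 ^ (e - 1) ≤ ρ * σ → 4 * qL e ≤ Q) (hκ0 : 0 ≤ κ) (hσ₀ : 0 ≤ σ₀)
    (hκ : ∀ b e, cB / 2 ^ (b - 1) ≤ σ₀ → cC / 2 ^ (e - 1) ≤ σ₀ →
      ∑ i ∈ X, LP (N + L) (shs L (s i)) cB cC (shF L fun k => encR L (B i k))
        (shF L fun k => encR L (C i k)) (S i) b e ≤
        κ * max (cB / 2 ^ (b - 1)) (cC / 2 ^ (e - 1)) ^ 2)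
    {LA LB LC LC' : ℕ} (lA : cA / 2 ^ (LA - 1) < σ) (lB : cB / 2 ^ (LB - 1) ≤ σ₀)
    (lC : cC / 2 ^ (LC - 1) ≤ σ₀) (lC' : cC / 2 ^ (LC' - 1) ≤ ρ * σ) :
    ∑ i ∈ X, ∑ k ∈ Icc 1 N, ∑ m ∈ s i k, |(2 ^ (k + L) : ℝ)⁻¹ *
        (((hd (k + L) * S i (k + L) m * (bl (k + L) (encR L (B i k)) m.2.1 m.2.2)ᵀ * hd (k + L) +
          YF i (k + L) m) * (bl (k + L) (dup L (A i k)) m.1 m.2.1)ᵀ) * hd (k + L) *
          bl (k + L) (encR L (C i k)) m.1 m.2.2).trace| ≤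
      6 * √(v * (8800 * cP * (4 ^ L * max DC (ρ / σ * √(GA * DC))))) * LA + κC * LC' +
        (κC * LC' + 150 * √(w * (4 ^ L * ((ρ * σ) ^ 2 * DA + σ ^ 2 * DC))) +
          (9900 * (4 ^ L * D) * σ + 6 * √(550 * (4 ^ L * D) * Q) * (LB + LC) +
            36 * √(550 * (4 ^ L * D) * κ) * σ₀)) := by
  have hP0 : 0 ≤ cP := by linarith
  have h4 : (0 : ℝ) < 4 ^ L := by positivity
  have sA : ∀ i ∈ X, S4E N R.1 R.2.1 (QA i) (A i) (own4 N R.1 R.2.1 (QA i) (A i)) cP := fun i hi =>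
    ⟨fA.path i hi, fA.zero i hi, le_rfl, fA.pack i hi⟩
  have eA : ∀ i ∈ X, L2E N R.1 R.2.1 (QA i) (A i) (pwr N R.1 R.2.1 (QA i) (A i)) := fun i hi =>
    ⟨fA.path i hi, fA.zero i hi, le_rfl⟩
  have key := tzX' (N := N + L) (R := R) (X := X) (c := fun i => shc L (c i))
    (s := fun i => shs L (s i)) (A := fun i => shF L fun k => dup L (A i k))
    (B := fun i => shF L fun k => encR L (B i k)) (C := fun i => shF L fun k => encR L (C i k))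
    (cA := cA) (cB := cB) (cC := cC) (cP := cP) (S := S) (YF := YF)
    (GA := 4 ^ L * GA) (DA := 4 ^ L * DA) (DB := 4 ^ L * DB) (DC := 4 ^ L * DC)
    (D := 4 ^ L * D) (Q := Q) (κ := κ) (σ := σ) (ρ := ρ) (σ₀ := σ₀) (v := v) (w := w)
    (κC := κC) (qL := qL) (qF := qF) (LA := LA) (LB := LB) (LC := LC) (LC' := LC')
    (fun i hi => shc_pl (L := L) (hc i hi)) (fun i hi => shs_sub (L := L) (hs i hi)) hA hB hC
    (fun i hi => cap_shF (p := fun m => m.1) (q := fun m => m.2.1) fun k hk m hm =>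
      cap_dup (capA i hi k hk m hm))
    (fun i hi => cap_shF (p := fun m => m.2.1) (q := fun m => m.2.2) fun k hk m hm =>
      cap_encR (capB i hi k hk m hm))
    (fun i hi => cap_shF (p := fun m => m.1) (q := fun m => m.2.2) fun k hk m hm =>
      cap_encR (capC i hi k hk m hm)) hP
    (fun i hi => of_shs (P := fun k m => (1 - (S i k m)ᵀ * S i k m).PosSemidef) (hS i hi))
    (fun i hi => S4E_dup (L := L) hP0 (sA i hi)) (fun i hi => L2E_dup (L := L) (eA i hi))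
    (fun i hi => L2E_encR (hB0 i hi) (pB i hi) le_rfl)
    (fun i hi => L2E_encR (hC0 i hi) (pC i hi) le_rfl)
    (by rw [← mul_sum]; exact mul_le_mul_of_nonneg_left fA.own h4.le)
    (by rw [← mul_sum]; exact mul_le_mul_of_nonneg_left fA.pow h4.le)
    (by rw [← mul_sum]; exact mul_le_mul_of_nonneg_left oB h4.le)
    (by rw [← mul_sum]; exact mul_le_mul_of_nonneg_left oC h4.le)
    (by positivity) (by positivity)
    (by rw [← mul_add]; exact mul_le_mul_of_nonneg_left hD h4.le)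
    (by rw [← mul_add]; exact mul_le_mul_of_nonneg_left hD' h4.le) hσ hρ hκC
    (by
      refine le_trans (le_of_eq ?_) hv
      refine sum_congr rfl fun i _ => ?_
      rw [sum_shs N L (s i) fun k m => (4 ^ k : ℝ)⁻¹ *
        (((YL cB (shF L fun k => encR L (B i k)) (S i) 0 k m + YF i k m) *
          (bl k (shF L (fun k => dup L (A i k)) k) m.1 m.2.1)ᵀ) *
        ((YL cB (shF L fun k => encR L (B i k)) (S i) 0 k m + YF i k m) *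
          (bl k (shF L (fun k => dup L (A i k)) k) m.1 m.2.1)ᵀ)ᵀ).trace]
      simp only [shF_add, YL_lab])
    (by
      refine le_trans (le_of_eq ?_) hw
      exact sum_congr rfl fun i _ =>
        sum_shs N L (s i) fun k m => (YF i k m * (YF i k m)ᵀ).trace)
    (fun e => by
      refine le_trans (le_of_eq ?_) (hqL e)
      refine sum_congr rfl fun i _ => ?_
      rw [PH_lab]
      simp only [YL_lab])
    (fun e he => by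
      refine le_trans (le_of_eq ?_) (hqF e he)
      exact sum_congr rfl fun i _ => PH_lab ..)
    (fun e he => by
      refine le_trans (le_of_eq ?_) (hκq e he)
      rw [sqrt_four_pow L GA DC, mul_max_of_nonneg _ _ h4.le, mul_min_of_nonneg _ _ h4.le,
        mul_div_assoc, mul_div_assoc, mul_left_comm _ (4 ^ L) DC])
    hQ hκ0 hσ₀ hκ lA lB lC lC'
  have e2 : ∀ i, ∑ k ∈ Icc 1 (N + L), ∑ m ∈ shs L (s i) k, |(2 ^ k : ℝ)⁻¹ *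
        (((YL cB (shF L fun k => encR L (B i k)) (S i) 0 k m + YF i k m) *
          (bl k (shF L (fun k => dup L (A i k)) k) m.1 m.2.1)ᵀ) * hd k *
          bl k (shF L (fun k => encR L (C i k)) k) m.1 m.2.2).trace| =
      ∑ k ∈ Icc 1 N, ∑ m ∈ s i k, |(2 ^ (k + L) : ℝ)⁻¹ *
        (((hd (k + L) * S i (k + L) m * (bl (k + L) (encR L (B i k)) m.2.1 m.2.2)ᵀ * hd (k + L) +
          YF i (k + L) m) * (bl (k + L) (dup L (A i k)) m.1 m.2.1)ᵀ) * hd (k + L) *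
          bl (k + L) (encR L (C i k)) m.1 m.2.2).trace| := by
    intro i
    rw [sum_shs N L (s i) fun k m => |(2 ^ k : ℝ)⁻¹ *
        (((YL cB (shF L fun k => encR L (B i k)) (S i) 0 k m + YF i k m) *
          (bl k (shF L (fun k => dup L (A i k)) k) m.1 m.2.1)ᵀ) * hd k *
          bl k (shF L (fun k => encR L (C i k)) k) m.1 m.2.2).trace|]
    simp only [shF_add, YL_lab]
  simp only [e2] at key
  refine key.trans (le_of_eq ?_)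
  rw [sqrt_four_pow L GA DC, mul_max_of_nonneg _ _ h4.le,
    show ρ / σ * (4 ^ L * √(GA * DC)) = 4 ^ L * (ρ / σ * √(GA * DC)) by ring,
    show (ρ * σ) ^ 2 * (4 ^ L * DA) + σ ^ 2 * (4 ^ L * DC) =
      4 ^ L * ((ρ * σ) ^ 2 * DA + σ ^ 2 * DC) by ring]

end lab

end

end Vale.Agent.P141.H555
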