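import Vale.Agent.P141.H555.Lab
import Vale.Agent.P141.H834.CntP

/-!
# P141, CE, module M7 (Lev), file 4: families over the fibre

`M z x y`, `z ∈ C` the fibre variable; singular data for every `z`.  Index sets `I z`.
`num C I` is the averaged number of indices.  Level sets `lvI s σ S z = {σ ≤ s z i < S}`.
-/

namespace Vale.Agent.P141.H555

noncomputable section

open scoped BigOperators
open Finset Vale.Agent.P141.PL.H315 Vale.Agent.P141.H550 Vale.Agent.P141.H769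
open Vale.Agent.P141.H834 (cnt UnifP LineB gf)
open Vale.Agent.P141.H922 (n2 n4 nN)

/-- singular data of a family of kernels -/
def IsSvdF (A B : Finset ℤ) (M : ℤ → ℤ → ℤ → ℝ) (s : ℤ → A → ℝ) (φ ψ : ℤ → A → ℤ → ℝ) : Prop :=
  ∀ z, IsSvd A B (M z) (s z) (φ z) (ψ z)

theorem exists_isSvdF {A B : Finset ℤ} (hA : A.Nonempty) (hB : B.Nonempty) (M : ℤ → ℤ → ℤ → ℝ) :
    ∃ (s : ℤ → A → ℝ) (φ ψ : ℤ → A → ℤ → ℝ), IsSvdF A B M s φ ψ := by
  have h := fun z => exists_isSvd hA hB (M z)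
  choose s φ ψ h using h
  exact ⟨s, φ, ψ, h⟩

/-- averaged number of indices -/
def num {A : Finset ℤ} (C : Finset ℤ) (I : ℤ → Finset A) : ℝ := avg C fun z => ((I z).card : ℝ)

theorem num_nonneg {A : Finset ℤ} (C : Finset ℤ) (I : ℤ → Finset A) : 0 ≤ num C I :=
  avg_nonneg fun _ _ => Nat.cast_nonneg _

open Classical in
/-- the level set `σ ≤ s < S` -/
def lvI {A : Finset ℤ} (s : ℤ → A → ℝ) (σ S : ℝ) (z : ℤ) : Finset A :=
  univ.filter fun i => σ ≤ s z i ∧ s z i < S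

open Classical in
/-- the level set `σ ≤ s` -/
def hiI {A : Finset ℤ} (s : ℤ → A → ℝ) (σ : ℝ) (z : ℤ) : Finset A :=
  univ.filter fun i => σ ≤ s z i

open Classical in
/-- the level set `s < σ` -/
def loI {A : Finset ℤ} (s : ℤ → A → ℝ) (σ : ℝ) (z : ℤ) : Finset A :=
  univ.filter fun i => s z i < σ

theorem mem_lvI {A : Finset ℤ} {s : ℤ → A → ℝ} {σ S : ℝ} {z : ℤ} {i : A} :
    i ∈ lvI s σ S z ↔ σ ≤ s z i ∧ s z i < S := by
  unfold lvI; rw [mem_filter]; exact ⟨fun h => h.2, fun h => ⟨mem_univ _, h⟩⟩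

theorem mem_hiI {A : Finset ℤ} {s : ℤ → A → ℝ} {σ : ℝ} {z : ℤ} {i : A} :
    i ∈ hiI s σ z ↔ σ ≤ s z i := by
  unfold hiI; rw [mem_filter]; exact ⟨fun h => h.2, fun h => ⟨mem_univ _, h⟩⟩

theorem mem_loI {A : Finset ℤ} {s : ℤ → A → ℝ} {σ : ℝ} {z : ℤ} {i : A} :
    i ∈ loI s σ z ↔ s z i < σ := by
  unfold loI; rw [mem_filter]; exact ⟨fun h => h.2, fun h => ⟨mem_univ _, h⟩⟩

theorem num_hiI {A : Finset ℤ} (C : Finset ℤ) (s : ℤ → A → ℝ) (σ : ℝ) :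
    num C (hiI s σ) = cnt C s σ := by
  unfold num cnt hiI; rfl

theorem lvI_subset_hiI {A : Finset ℤ} (s : ℤ → A → ℝ) (σ S : ℝ) (z : ℤ) :
    lvI s σ S z ⊆ hiI s σ z := fun _ h => mem_hiI.2 (mem_lvI.1 h).1

theorem num_mono {A : Finset ℤ} (C : Finset ℤ) {I J : ℤ → Finset A} (h : ∀ z ∈ C, I z ⊆ J z) :
    num C I ≤ num C J :=
  avg_mono fun z hz => by exact_mod_cast card_le_card (h z hz)

theorem num_lvI_le {A : Finset ℤ} (C : Finset ℤ) (s : ℤ → A → ℝ) (σ S : ℝ) :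
    num C (lvI s σ S) ≤ cnt C s σ := by
  rw [← num_hiI]; exact num_mono C fun z _ => lvI_subset_hiI s σ S z

/-- the three parts of a sum over all indices -/
theorem sum_three {A : Finset ℤ} (s : ℤ → A → ℝ) {σ S : ℝ} (hσS : σ ≤ S) (z : ℤ) (f : A → ℝ) :
    ∑ i, f i = ∑ i ∈ loI s σ z, f i + ∑ i ∈ lvI s σ S z, f i + ∑ i ∈ hiI s S z, f i := by
  classical
  unfold loI lvI hiI
  rw [sum_filter, sum_filter, sum_filter, ← sum_add_distrib, ← sum_add_distrib]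
  refine sum_congr rfl fun i _ => ?_
  by_cases h1 : s z i < σ
  · rw [if_pos h1, if_neg fun h => (not_le.2 h1) h.1, if_neg (not_le.2 (h1.trans_le hσS))]
    ring
  · by_cases h2 : s z i < S
    · rw [if_neg h1, if_pos ⟨not_lt.1 h1, h2⟩, if_neg (not_le.2 h2)]; ring
    · rw [if_neg h1, if_neg fun h => h2 h.2, if_pos (not_lt.1 h2)]; ring

section

variable {A B C : Finset ℤ} {M : ℤ → ℤ → ℤ → ℝ} {s : ℤ → A → ℝ} {φ ψ : ℤ → A → ℤ → ℝ}

theorem lev_three (h : IsSvdF A B M s φ ψ) {σ S : ℝ} (hσS : σ ≤ S) (z : ℤ) {x y : ℤ}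
    (hx : x ∈ A) (hy : y ∈ B) :
    M z x y = lev (s z) (φ z) (ψ z) (loI s σ z) x y + lev (s z) (φ z) (ψ z) (lvI s σ S z) x y +
      lev (s z) (φ z) (ψ z) (hiI s S z) x y := by
  rw [(h z).dec x hx y hy]
  exact sum_three s hσS z _

/-- lower bound of a power sum by the number -/
theorem num_mul_le {I : ℤ → Finset A} {σ : ℝ} (hσ : 0 ≤ σ)
    (hI : ∀ z ∈ C, ∀ i ∈ I z, σ ≤ s z i) (m : ℕ) :
    σ ^ m * num C I ≤ avg C fun z => ∑ i ∈ I z, s z i ^ m := by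
  unfold num
  rw [← avg_mul_left]
  refine avg_mono fun z hz => ?_
  rw [mul_comm, ← nsmul_eq_mul]
  exact card_nsmul_le_sum _ _ _ fun i hi => pow_le_pow_left₀ hσ (hI z hz i hi) m

theorem le_num_mul (hs : ∀ z i, 0 ≤ s z i) {I : ℤ → Finset A} {S : ℝ}
    (hI : ∀ z ∈ C, ∀ i ∈ I z, s z i ≤ S) (m : ℕ) :
    (avg C fun z => ∑ i ∈ I z, s z i ^ m) ≤ S ^ m * num C I := by
  unfold num
  rw [← avg_mul_left]
  refine avg_mono fun z hz => ?_
  rw [mul_comm, ← nsmul_eq_mul]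
  exact sum_le_card_nsmul _ _ _ fun i hi => pow_le_pow_left₀ (hs z i) (hI z hz i hi) m

/-- (L3) the test functions of a level -/
theorem test_fam (h : IsSvdF A B M s φ ψ) (I : ℤ → Finset A) :
    (avg C fun z => avg A fun x => avg B fun y =>
      M z x y * ∑ i ∈ I z, φ z i x * ψ z i y) = avg C fun z => ∑ i ∈ I z, s z i := by
  refine avg_congr fun z _ => ?_
  have := (h z).test (I z) fun _ => 1
  simp only [one_mul] at this
  exact this

theorem test_ge (h : IsSvdF A B M s φ ψ) {I : ℤ → Finset A} {σ : ℝ} (hσ : 0 ≤ σ)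
    (hI : ∀ z ∈ C, ∀ i ∈ I z, σ ≤ s z i) :
    σ * num C I ≤ avg C fun z => avg A fun x => avg B fun y =>
      M z x y * ∑ i ∈ I z, φ z i x * ψ z i y := by
  rw [test_fam h]
  have := num_mul_le (C := C) hσ hI 1
  simpa using this

/-- the energy and the fourth moment of a level -/
theorem energy_lev_le (h : IsSvdF A B M s φ ψ) (I : ℤ → Finset A) :
    (avg C fun z => ∑ i ∈ I z, s z i ^ 2) ≤
      avg C fun z => avg A fun x => avg B fun y => M z x y ^ 2 :=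
  avg_mono fun z _ => by
    rw [← (h z).sum_sq]
    exact sum_le_sum_of_subset_of_nonneg (subset_univ _) fun _ _ _ => sq_nonneg _

theorem four_lev_le (h : IsSvdF A B M s φ ψ) (I : ℤ → Finset A) :
    (avg C fun z => ∑ i ∈ I z, s z i ^ 4) ≤
      avg C fun z => avg A fun x => avg A fun c => g2 B (M z) x c ^ 2 :=
  avg_mono fun z _ => by
    rw [← (h z).sum_four]
    exact sum_le_sum_of_subset_of_nonneg (subset_univ _) fun _ _ _ => by positivity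

theorem num_energy (h : IsSvdF A B M s φ ψ) {I : ℤ → Finset A} {σ : ℝ} (hσ : 0 ≤ σ)
    (hI : ∀ z ∈ C, ∀ i ∈ I z, σ ≤ s z i) :
    σ ^ 2 * num C I ≤ avg C fun z => avg A fun x => avg B fun y => M z x y ^ 2 :=
  (num_mul_le hσ hI 2).trans (energy_lev_le h I)

theorem num_four (h : IsSvdF A B M s φ ψ) {I : ℤ → Finset A} {σ : ℝ} (hσ : 0 ≤ σ)
    (hI : ∀ z ∈ C, ∀ i ∈ I z, σ ≤ s z i) :
    σ ^ 4 * num C I ≤ avg C fun z => avg A fun x => avg A fun c => g2 B (M z) x c ^ 2 :=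
  (num_mul_le hσ hI 4).trans (four_lev_le h I)

/-- (L6) the projection kernels -/
theorem prj_hs (h : IsSvdF A B M s φ ψ) (I : ℤ → Finset A) :
    (avg C fun z => avg A fun x => avg A fun x' => prj (φ z) (I z) x x' ^ 2) = num C I := by
  unfold num
  refine avg_congr fun z _ => ?_
  have := (h z).hs_LL (I z) fun _ => 1
  simp only [one_mul, one_pow, sum_const, nsmul_eq_mul, mul_one] at this
  exact this

theorem prj_hsR (h : IsSvdF A B M s φ ψ) {I : ℤ → Finset A}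
    (hI : ∀ z ∈ C, ∀ i ∈ I z, 0 < s z i) :
    (avg C fun z => avg B fun y => avg B fun y' => prj (ψ z) (I z) y y' ^ 2) = num C I := by
  unfold num
  refine avg_congr fun z hz => ?_
  have := (h z).hs_RR (hI z hz) fun _ => 1
  simp only [one_mul, one_pow, sum_const, nsmul_eq_mul, mul_one] at this
  exact this

theorem prj_trace (h : IsSvdF A B M s φ ψ) (I : ℤ → Finset A) :
    (avg C fun z => avg A fun x => prj (φ z) (I z) x x) = num C I := by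
  unfold num
  refine avg_congr fun z _ => ?_
  simp only [prj_self]
  rw [avg_sum]
  simp only [(h z).norm_phi]
  simp

/-- (L4) rows of the projection kernel -/
theorem prj_row (h : IsSvdF A B M s φ ψ) {I : ℤ → Finset A} {σ : ℝ} (hσ : 0 ≤ σ) {z : ℤ}
    (hI : ∀ i ∈ I z, σ ≤ s z i) {x : ℤ} (hx : x ∈ A) :
    σ ^ 2 * prj (φ z) (I z) x x ≤ avg B fun y => M z x y ^ 2 := by
  rw [prj_self, ← (h z).row hx, mul_sum]
  refine (sum_le_sum fun i hi => mul_le_mul_of_nonneg_right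
    (pow_le_pow_left₀ hσ (hI i hi) 2) (sq_nonneg _)).trans ?_
  exact sum_le_sum_of_subset_of_nonneg (subset_univ _) fun _ _ _ => by positivity

theorem prj_col (h : IsSvdF A B M s φ ψ) {I : ℤ → Finset A} {σ : ℝ} (hσ : 0 ≤ σ) {z : ℤ}
    (hI : ∀ i ∈ I z, σ ≤ s z i) {y : ℤ} (hy : y ∈ B) :
    σ ^ 2 * prj (ψ z) (I z) y y ≤ avg A fun x => M z x y ^ 2 := by
  rw [prj_self, ← (h z).col hy, mul_sum]
  refine (sum_le_sum fun i hi => mul_le_mul_of_nonneg_right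
    (pow_le_pow_left₀ hσ (hI i hi) 2) (sq_nonneg _)).trans ?_
  exact sum_le_sum_of_subset_of_nonneg (subset_univ _) fun _ _ _ => by positivity

/-! ### the label vectors of a family -/

/-- left label vectors on the edge (fibre, row) -/
def uF (h : IsSvdF A B M s φ ψ) (σ : ℝ) (I : ℤ → Finset A) (z x : ℤ) : EuclideanSpace ℝ A :=
  (h z).uu σ (I z) x

/-- right label vectors on the edge (fibre, column) -/
def vF (h : IsSvdF A B M s φ ψ) (σ : ℝ) (I : ℤ → Finset A) (z y : ℤ) : EuclideanSpace ℝ A :=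
  (h z).vv σ (I z) y

theorem inner_uvF (h : IsSvdF A B M s φ ψ) {σ : ℝ} (hσ : 0 ≤ σ) (I : ℤ → Finset A) (z x y : ℤ) :
    inner ℝ (uF h σ I z x) (vF h σ I z y) = σ * lev (s z) (φ z) (ψ z) (I z) x y :=
  (h z).inner_uv hσ (I z) x y

/-- `⟨M, σ⁻¹ ⟨u, v⟩⟩` is the energy of the level part -/
theorem pair_uvF (h : IsSvdF A B M s φ ψ) {σ : ℝ} (hσ : 0 < σ) (I : ℤ → Finset A) :
    (avg C fun z => avg A fun x => avg B fun y =>
      M z x y * (σ⁻¹ * inner ℝ (uF h σ I z x) (vF h σ I z y))) =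
      avg C fun z => ∑ i ∈ I z, s z i ^ 2 :=
  avg_congr fun z _ => (h z).pair_uv hσ (I z)

theorem energy_uF (h : IsSvdF A B M s φ ψ) {σ : ℝ} (hσ : 0 ≤ σ) (I : ℤ → Finset A) :
    (avg C fun z => avg A fun x => ‖uF h σ I z x‖ ^ 2) = σ * avg C fun z => ∑ i ∈ I z, s z i := by
  rw [← avg_mul_left]
  exact avg_congr fun z _ => (h z).energy_u hσ (I z)

theorem energy_vF (h : IsSvdF A B M s φ ψ) {σ : ℝ} (hσ : 0 ≤ σ) (I : ℤ → Finset A) :
    (avg C fun z => avg B fun y => ‖vF h σ I z y‖ ^ 2) = σ * avg C fun z => ∑ i ∈ I z, s z i := by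
  rw [← avg_mul_left]
  exact avg_congr fun z _ => (h z).energy_v hσ (I z)

/-- the energies of `u`, `v` are at most the energy of the level part (hence of `M`) and at least
`σ / S` times it -/
theorem energy_uF_le (h : IsSvdF A B M s φ ψ) {σ : ℝ} (hσ : 0 ≤ σ) {I : ℤ → Finset A}
    (hI : ∀ z ∈ C, ∀ i ∈ I z, σ ≤ s z i) :
    (avg C fun z => avg A fun x => ‖uF h σ I z x‖ ^ 2) ≤ avg C fun z => ∑ i ∈ I z, s z i ^ 2 := by
  rw [energy_uF h hσ, ← avg_mul_left]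
  refine avg_mono fun z hz => ?_
  rw [mul_sum]
  refine sum_le_sum fun i hi => ?_
  rw [sq]
  exact mul_le_mul_of_nonneg_right (hI z hz i hi) ((h z).s0 i)

theorem energy_vF_le (h : IsSvdF A B M s φ ψ) {σ : ℝ} (hσ : 0 ≤ σ) {I : ℤ → Finset A}
    (hI : ∀ z ∈ C, ∀ i ∈ I z, σ ≤ s z i) :
    (avg C fun z => avg B fun y => ‖vF h σ I z y‖ ^ 2) ≤ avg C fun z => ∑ i ∈ I z, s z i ^ 2 := by
  rw [energy_vF h hσ, ← energy_uF h hσ]
  exact energy_uF_le h hσ hI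

theorem energy_uF_ge (h : IsSvdF A B M s φ ψ) {σ S : ℝ} (hσ : 0 ≤ σ) {I : ℤ → Finset A}
    (hI : ∀ z ∈ C, ∀ i ∈ I z, s z i ≤ S) :
    (σ * avg C fun z => ∑ i ∈ I z, s z i ^ 2) ≤
      S * avg C fun z => avg A fun x => ‖uF h σ I z x‖ ^ 2 := by
  rw [energy_uF h hσ, mul_left_comm]
  refine mul_le_mul_of_nonneg_left ?_ hσ
  rw [← avg_mul_left]
  refine avg_mono fun z hz => ?_
  rw [mul_sum]
  refine sum_le_sum fun i hi => ?_
  rw [sq]
  exact mul_le_mul_of_nonneg_right (hI z hz i hi) ((h z).s0 i)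

theorem norm_uF_le (h : IsSvdF A B M s φ ψ) {σ : ℝ} (hσ : 0 ≤ σ) {I : ℤ → Finset A} {z : ℤ}
    (hI : ∀ i ∈ I z, σ ≤ s z i) {x : ℤ} (hx : x ∈ A) :
    ‖uF h σ I z x‖ ^ 2 ≤ avg B fun y => M z x y ^ 2 := (h z).norm_u_le' hσ hI hx

theorem norm_vF_le (h : IsSvdF A B M s φ ψ) {σ : ℝ} (hσ : 0 ≤ σ) {I : ℤ → Finset A} {z : ℤ}
    (hI : ∀ i ∈ I z, σ ≤ s z i) {y : ℤ} (hy : y ∈ B) :
    ‖vF h σ I z y‖ ^ 2 ≤ avg A fun x => M z x y ^ 2 := (h z).norm_v_le' hσ hI hy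

/-- potentials of the families, the hypothesis `hop` of `H703.u4P` (middle variable = fibre) -/
theorem pot_uF (h : IsSvdF A B M s φ ψ) {σ S : ℝ} (hσ : 0 ≤ σ) (hS0 : 0 ≤ S)
    {I : ℤ → Finset A} {z : ℤ} (hS : ∀ i ∈ I z, s z i ≤ S) (w : EuclideanSpace ℝ A) :
    (avg A fun x => (inner ℝ (uF h σ I z x) w) ^ 2) ≤ σ * S * ‖w‖ ^ 2 :=
  (h z).pot_u hσ hS0 hS w

theorem pot_vF (h : IsSvdF A B M s φ ψ) {σ S : ℝ} (hσ : 0 ≤ σ) (hS0 : 0 ≤ S)
    {I : ℤ → Finset A} {z : ℤ} (hS : ∀ i ∈ I z, s z i ≤ S) (w : EuclideanSpace ℝ A) :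
    (avg B fun y => (inner ℝ (vF h σ I z y) w) ^ 2) ≤ σ * S * ‖w‖ ^ 2 :=
  (h z).pot_v hσ hS0 hS w

/-- the potential sum of H971/Split on the top square -/
theorem potF_le (h : IsSvdF A B M s φ ψ) {σ S : ℝ} (hσ : 0 ≤ σ) (hS0 : 0 ≤ S)
    {I : ℤ → Finset A} (hS : ∀ z ∈ C, ∀ i ∈ I z, s z i ≤ S) :
    H971.pot C A (uF h σ I) ≤ σ * S * (C.card * A.card) := by
  unfold H971.pot
  refine (sum_le_sum fun z hz => (h z).opn_u hσ hS0 (hS z hz)).trans (le_of_eq ?_)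
  rw [sum_const, nsmul_eq_mul]; ring

theorem potFR_le (h : IsSvdF A B M s φ ψ) {σ S : ℝ} (hσ : 0 ≤ σ) (hS0 : 0 ≤ S)
    {I : ℤ → Finset A} (hS : ∀ z ∈ C, ∀ i ∈ I z, s z i ≤ S) :
    H971.pot C B (vF h σ I) ≤ σ * S * (C.card * B.card) := by
  unfold H971.pot
  refine (sum_le_sum fun z hz => (h z).opn_v hσ hS0 (hS z hz)).trans (le_of_eq ?_)
  rw [sum_const, nsmul_eq_mul]; ring

/-- a direction `η z` (only dependent on the fibre), tested against `v`: uniformly in `z` -/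
theorem dir_vF (h : IsSvdF A B M s φ ψ) {σ S : ℝ} (hσ : 0 ≤ σ) (hS0 : 0 ≤ S)
    {I : ℤ → Finset A} (hS : ∀ z ∈ C, ∀ i ∈ I z, s z i ≤ S) (η : ℤ → EuclideanSpace ℝ A)
    (D : Finset ℤ) (hD : D ⊆ C) :
    (avg D fun z => avg B fun y => (inner ℝ (vF h σ I z y) (η z)) ^ 2) ≤
      σ * S * avg D fun z => ‖η z‖ ^ 2 := by
  rw [← avg_mul_left]
  exact avg_mono fun z hz => pot_vF h hσ hS0 (hS z (hD hz)) _

end

/-! ### gauged slices -/

section

variable {A B C : Finset ℤ} {G : ℤ × ℤ × ℤ → ℝ} {a : ℤ → ℤ → ℝ} {s : ℤ → A → ℝ}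
  {φ ψ : ℤ → A → ℤ → ℝ} {e hh : ℝ}

/-- the test of a gauged slice as an edge test of `G` -/
theorem pair_gauge (h : IsSvdF A B (sl a G) s φ ψ) {σ : ℝ} (hσ : 0 < σ) (I : ℤ → Finset A) :
    (avg (A ×ˢ B ×ˢ C) fun q => G q *
      (a q.1 q.2.1 * (σ⁻¹ * inner ℝ (uF h σ I q.2.2 q.1) (vF h σ I q.2.2 q.2.1)))) =
      avg C fun z => ∑ i ∈ I z, s z i ^ 2 := by
  rw [← pair_uvF h hσ I, avg_prod]
  have e2 : ∀ x, (avg (B ×ˢ C) fun r => G (x, r) *
      (a x r.1 * (σ⁻¹ * inner ℝ (uF h σ I r.2 x) (vF h σ I r.2 r.1)))) =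
      avg C fun z => avg B fun y =>
        sl a G z x y * (σ⁻¹ * inner ℝ (uF h σ I z x) (vF h σ I z y)) := by
    intro x
    rw [avg_prod, avg_comm]
    exact avg_congr fun z _ => avg_congr fun y _ => by unfold sl; ring
  rw [avg_congr fun x _ => e2 x, avg_comm]

/-- rows of the gauged slices -/
theorem row_gauge (hL : LineB e A B C G) (h0 : 0 ≤ hh) (ha : ∀ x ∈ A, ∀ y ∈ B, a x y ^ 2 ≤ hh)
    {x z : ℤ} (hx : x ∈ A) (hz : z ∈ C) : (avg B fun y => sl a G z x y ^ 2) ≤ hh * e := by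
  have h1 : (avg B fun y => sl a G z x y ^ 2) ≤ avg B fun y => hh * G (x, y, z) ^ 2 := by
    refine avg_mono fun y hy => ?_
    unfold sl
    rw [mul_pow]
    exact mul_le_mul_of_nonneg_right (ha x hx y hy) (sq_nonneg _)
  refine h1.trans ?_
  rw [avg_mul_left]
  exact mul_le_mul_of_nonneg_left (hL.l2 x hx z hz) h0

theorem col_gauge (hL : LineB e A B C G) (h0 : 0 ≤ hh) (ha : ∀ x ∈ A, ∀ y ∈ B, a x y ^ 2 ≤ hh)
    {y z : ℤ} (hy : y ∈ B) (hz : z ∈ C) : (avg A fun x => sl a G z x y ^ 2) ≤ hh * e := by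
  have h1 : (avg A fun x => sl a G z x y ^ 2) ≤ avg A fun x => hh * G (x, y, z) ^ 2 := by
    refine avg_mono fun x hx => ?_
    unfold sl
    rw [mul_pow]
    exact mul_le_mul_of_nonneg_right (ha x hx y hy) (sq_nonneg _)
  refine h1.trans ?_
  rw [avg_mul_left]
  exact mul_le_mul_of_nonneg_left (hL.l1 y hy z hz) h0

/-- `‖u‖² ≤ h² e`, `‖v‖² ≤ h² e` pointwise -/
theorem norm_uF_gauge (h : IsSvdF A B (sl a G) s φ ψ) (hL : LineB e A B C G) (h0 : 0 ≤ hh)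
    (ha : ∀ x ∈ A, ∀ y ∈ B, a x y ^ 2 ≤ hh) {σ : ℝ} (hσ : 0 ≤ σ) {I : ℤ → Finset A} {z : ℤ}
    (hz : z ∈ C) (hI : ∀ i ∈ I z, σ ≤ s z i) {x : ℤ} (hx : x ∈ A) :
    ‖uF h σ I z x‖ ^ 2 ≤ hh * e :=
  (norm_uF_le h hσ hI hx).trans (row_gauge hL h0 ha hx hz)

theorem norm_vF_gauge (h : IsSvdF A B (sl a G) s φ ψ) (hL : LineB e A B C G) (h0 : 0 ≤ hh)
    (ha : ∀ x ∈ A, ∀ y ∈ B, a x y ^ 2 ≤ hh) {σ : ℝ} (hσ : 0 ≤ σ) {I : ℤ → Finset A} {z : ℤ}
    (hz : z ∈ C) (hI : ∀ i ∈ I z, σ ≤ s z i) {y : ℤ} (hy : y ∈ B) :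
    ‖vF h σ I z y‖ ^ 2 ≤ hh * e :=
  (norm_vF_le h hσ hI hy).trans (col_gauge hL h0 ha hy hz)

/-- the degrees over the fibre: `avg_z ‖u z x‖² ≤ e * avg_y a x y ²` -/
theorem deg_uF (h : IsSvdF A B (sl a G) s φ ψ) (hL : LineB e A B C G) {σ : ℝ} (hσ : 0 ≤ σ)
    {I : ℤ → Finset A} (hI : ∀ z ∈ C, ∀ i ∈ I z, σ ≤ s z i) {x : ℤ} (hx : x ∈ A) :
    (avg C fun z => ‖uF h σ I z x‖ ^ 2) ≤ e * avg B fun y => a x y ^ 2 := by
  have h1 : (avg C fun z => ‖uF h σ I z x‖ ^ 2) ≤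
      avg C fun z => avg B fun y => sl a G z x y ^ 2 :=
    avg_mono fun z hz => norm_uF_le h hσ (hI z hz) hx
  refine h1.trans ?_
  rw [avg_comm, ← avg_mul_left]
  refine avg_mono fun y hy => ?_
  have h2 : (avg C fun z => sl a G z x y ^ 2) = a x y ^ 2 * avg C fun z => G (x, y, z) ^ 2 := by
    rw [← avg_mul_left]
    exact avg_congr fun z _ => by unfold sl; ring
  rw [h2, mul_comm e]
  exact mul_le_mul_of_nonneg_left (hL.l3 x hx y hy) (sq_nonneg _)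

theorem deg_vF (h : IsSvdF A B (sl a G) s φ ψ) (hL : LineB e A B C G) {σ : ℝ} (hσ : 0 ≤ σ)
    {I : ℤ → Finset A} (hI : ∀ z ∈ C, ∀ i ∈ I z, σ ≤ s z i) {y : ℤ} (hy : y ∈ B) :
    (avg C fun z => ‖vF h σ I z y‖ ^ 2) ≤ e * avg A fun x => a x y ^ 2 := by
  have h1 : (avg C fun z => ‖vF h σ I z y‖ ^ 2) ≤
      avg C fun z => avg A fun x => sl a G z x y ^ 2 :=
    avg_mono fun z hz => norm_vF_le h hσ (hI z hz) hy
  refine h1.trans ?_
  rw [avg_comm, ← avg_mul_left]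
  refine avg_mono fun x hx => ?_
  have h2 : (avg C fun z => sl a G z x y ^ 2) = a x y ^ 2 * avg C fun z => G (x, y, z) ^ 2 := by
    rw [← avg_mul_left]
    exact avg_congr fun z _ => by unfold sl; ring
  rw [h2, mul_comm e]
  exact mul_le_mul_of_nonneg_left (hL.l3 x hx y hy) (sq_nonneg _)

/-- the degrees for a fixed fibre, in the other variable: `avg_x ‖u z x‖² = avg_y ‖v z y‖²` is at
most the energy of the slice -/
theorem energy_gauge (hL : LineB e A B C G) (a : ℤ → ℤ → ℝ) :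
    (avg C fun z => avg A fun x => avg B fun y => sl a G z x y ^ 2) ≤
      e * n2 (A ×ˢ B) (gf a) ^ 2 := by
  have := H834.energy_le hL a
  unfold mo2 at this
  exact this

end

end

end Vale.Agent.P141.H555
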