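import Vale.Agent.P141.H555.Lev
import Vale.Agent.P141.H971.Split

/-!
# P141, CE, module M7 (Lev), file 3: label vectors of singular functions

For singular data `s, φ, ψ` of a kernel on `A × B`, an index set `I` and weights `c`:
`lab I c φ x` is the vector `(c i * φ i x)_{i ∈ I}`.  Inner products, norms, potentials (in the
letters `qf`, `opn` of H971/Split) and Hilbert–Schmidt norms of the label Gram kernels; the special
weights `√(σ s i)`, for which `⟨u x, v y⟩ = σ * lev`, `‖u x‖² ≤ avg_B M x²` (if `σ ≤ s i` on `I`)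
and the potentials are at most `σ S` (if `s i ≤ S` on `I`).
-/

namespace Vale.Agent.P141.H555

noncomputable section

open scoped BigOperators
open Finset Vale.Agent.P141.PL.H315 Vale.Agent.P141.H550 Vale.Agent.P141.H769
open Vale.Agent.P141.H971 (qf opn opn_le)

open Classical in
/-- the label vector -/
def lab {A : Finset ℤ} (I : Finset A) (c : A → ℝ) (f : A → ℤ → ℝ) (x : ℤ) :
    EuclideanSpace ℝ A :=
  WithLp.toLp 2 fun i => if i ∈ I then c i * f i x else 0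

section

variable {A : Finset ℤ} (I : Finset A) (c d : A → ℝ) (f g : A → ℤ → ℝ) (x y : ℤ)

theorem inner_lab_vec (w : EuclideanSpace ℝ A) :
    inner ℝ (lab I c f x) w = ∑ i ∈ I, c i * f i x * w i := by
  classical
  unfold lab
  rw [EuclideanSpace.inner_eq_star_dotProduct]
  simp only [dotProduct, Pi.star_apply, star_trivial, mul_ite, mul_zero]
  rw [sum_ite_mem, univ_inter]
  exact sum_congr rfl fun i _ => by ring

theorem inner_lab : inner ℝ (lab I c f x) (lab I d g y) = ∑ i ∈ I, c i * d i * (f i x * g i y) := by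
  classical
  rw [inner_lab_vec]
  refine sum_congr rfl fun i hi => ?_
  have : (lab I d g y) i = d i * g i y := by
    unfold lab
    simp only
    rw [if_pos hi]
  rw [this]; ring

theorem norm_lab_sq : ‖lab I c f x‖ ^ 2 = ∑ i ∈ I, c i ^ 2 * f i x ^ 2 := by
  rw [← real_inner_self_eq_norm_sq, inner_lab]
  exact sum_congr rfl fun i _ => by ring

theorem norm_sq_eq (w : EuclideanSpace ℝ A) : ‖w‖ ^ 2 = ∑ i, w i ^ 2 := by
  rw [EuclideanSpace.norm_sq_eq]; simp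

theorem lab_zero_of (h : ∀ i ∈ I, f i x = 0) : lab I c f x = 0 := by
  have h1 : ‖lab I c f x‖ ^ 2 = 0 := by
    rw [norm_lab_sq]
    exact sum_eq_zero fun i hi => by rw [h i hi]; simp
  exact norm_eq_zero.1 (pow_eq_zero_iff (two_ne_zero) |>.1 h1)

end

namespace IsSvd

variable {A B : Finset ℤ} {M : ℤ → ℤ → ℝ} {s : A → ℝ} {φ ψ : A → ℤ → ℝ}

/-! ### potentials -/

theorem potL (h : IsSvd A B M s φ ψ) (I : Finset A) (c : A → ℝ) (w : EuclideanSpace ℝ A) :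
    (avg A fun x => (inner ℝ (lab I c φ x) w) ^ 2) = ∑ i ∈ I, c i ^ 2 * w i ^ 2 := by
  have e1 : (avg A fun x => (inner ℝ (lab I c φ x) w) ^ 2) =
      avg A fun x => (∑ i ∈ I, c i * w i * φ i x) ^ 2 :=
    avg_congr fun x _ => by
      rw [inner_lab_vec]
      congr 1
      exact sum_congr rfl fun i _ => by ring
  rw [e1, h.sumL I fun i => c i * w i]
  exact sum_congr rfl fun i _ => by ring

theorem potR_le (h : IsSvd A B M s φ ψ) (I : Finset A) (c : A → ℝ) (w : EuclideanSpace ℝ A) :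
    (avg B fun y => (inner ℝ (lab I c ψ y) w) ^ 2) ≤ ∑ i ∈ I, c i ^ 2 * w i ^ 2 := by
  have e1 : (avg B fun y => (inner ℝ (lab I c ψ y) w) ^ 2) =
      avg B fun y => (∑ i ∈ I, c i * w i * ψ i y) ^ 2 :=
    avg_congr fun x _ => by
      rw [inner_lab_vec]
      congr 1
      exact sum_congr rfl fun i _ => by ring
  rw [e1]
  refine (h.sumR_le I fun i => c i * w i).trans (le_of_eq ?_)
  exact sum_congr rfl fun i _ => by ring

theorem sum_le_norm (I : Finset A) {c : A → ℝ} {K : ℝ} (hK : ∀ i ∈ I, c i ^ 2 ≤ K)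
    (hK0 : 0 ≤ K) (w : EuclideanSpace ℝ A) : ∑ i ∈ I, c i ^ 2 * w i ^ 2 ≤ K * ‖w‖ ^ 2 := by
  rw [norm_sq_eq, mul_sum]
  refine (sum_le_sum fun i hi => mul_le_mul_of_nonneg_right (hK i hi) (sq_nonneg _)).trans ?_
  exact sum_le_sum_of_subset_of_nonneg (subset_univ _) fun _ _ _ => by positivity

theorem potL_le' (h : IsSvd A B M s φ ψ) {I : Finset A} {c : A → ℝ} {K : ℝ} (hK0 : 0 ≤ K)
    (hK : ∀ i ∈ I, c i ^ 2 ≤ K) (w : EuclideanSpace ℝ A) :
    (avg A fun x => (inner ℝ (lab I c φ x) w) ^ 2) ≤ K * ‖w‖ ^ 2 := by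
  rw [h.potL]; exact sum_le_norm I hK hK0 w

theorem potR_le' (h : IsSvd A B M s φ ψ) {I : Finset A} {c : A → ℝ} {K : ℝ} (hK0 : 0 ≤ K)
    (hK : ∀ i ∈ I, c i ^ 2 ≤ K) (w : EuclideanSpace ℝ A) :
    (avg B fun y => (inner ℝ (lab I c ψ y) w) ^ 2) ≤ K * ‖w‖ ^ 2 :=
  (h.potR_le I c w).trans (sum_le_norm I hK hK0 w)

/-- the operator norm in the letters of H971/Split (unnormalised sums) -/
theorem opnL_le (h : IsSvd A B M s φ ψ) {I : Finset A} {c : A → ℝ} {K : ℝ} (hK0 : 0 ≤ K)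
    (hK : ∀ i ∈ I, c i ^ 2 ≤ K) : opn A (lab I c φ) ≤ K * A.card := by
  refine opn_le fun w hw => ?_
  have h1 := h.potL_le' hK0 hK w
  unfold qf
  obtain rfl | hA := A.eq_empty_or_nonempty
  · simp
  have hc : (0 : ℝ) < A.card := by exact_mod_cast hA.card_pos
  have h2 : ∑ y ∈ A, (inner ℝ (lab I c φ y) w) ^ 2 =
      A.card * avg A fun x => (inner ℝ (lab I c φ x) w) ^ 2 := by
    unfold avg; field_simp
  rw [h2, mul_comm K]
  refine mul_le_mul_of_nonneg_left (h1.trans ?_) hc.le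
  have : ‖w‖ ^ 2 ≤ 1 := pow_le_one₀ (norm_nonneg _) hw
  nlinarith

theorem opnR_le (h : IsSvd A B M s φ ψ) {I : Finset A} {c : A → ℝ} {K : ℝ} (hK0 : 0 ≤ K)
    (hK : ∀ i ∈ I, c i ^ 2 ≤ K) : opn B (lab I c ψ) ≤ K * B.card := by
  refine opn_le fun w hw => ?_
  have h1 := h.potR_le' hK0 hK w
  unfold qf
  obtain rfl | hB := B.eq_empty_or_nonempty
  · simp
  have hc : (0 : ℝ) < B.card := by exact_mod_cast hB.card_pos
  have h2 : ∑ y ∈ B, (inner ℝ (lab I c ψ y) w) ^ 2 =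
      B.card * avg B fun x => (inner ℝ (lab I c ψ x) w) ^ 2 := by
    unfold avg; field_simp
  rw [h2, mul_comm K]
  refine mul_le_mul_of_nonneg_left (h1.trans ?_) hc.le
  have : ‖w‖ ^ 2 ≤ 1 := pow_le_one₀ (norm_nonneg _) hw
  nlinarith

/-! ### norms and Gram kernels -/

theorem normL (h : IsSvd A B M s φ ψ) (I : Finset A) (c : A → ℝ) :
    (avg A fun x => ‖lab I c φ x‖ ^ 2) = ∑ i ∈ I, c i ^ 2 := by
  simp only [norm_lab_sq]
  rw [avg_sum]
  refine sum_congr rfl fun i _ => ?_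
  rw [avg_mul_left, h.norm_phi, mul_one]

theorem normR (h : IsSvd A B M s φ ψ) {I : Finset A} (hI : ∀ i ∈ I, 0 < s i) (c : A → ℝ) :
    (avg B fun y => ‖lab I c ψ y‖ ^ 2) = ∑ i ∈ I, c i ^ 2 := by
  simp only [norm_lab_sq]
  rw [avg_sum]
  refine sum_congr rfl fun i hi => ?_
  rw [avg_mul_left, h.norm_psi (hI i hi), mul_one]

theorem gramL (h : IsSvd A B M s φ ψ) (I : Finset A) (c : A → ℝ) :
    (avg A fun x => avg A fun x' => (inner ℝ (lab I c φ x) (lab I c φ x')) ^ 2) =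
      ∑ i ∈ I, c i ^ 4 := by
  simp only [inner_lab]
  rw [h.hs_LL I fun i => c i * c i]
  exact sum_congr rfl fun i _ => by ring

theorem gramR (h : IsSvd A B M s φ ψ) {I : Finset A} (hI : ∀ i ∈ I, 0 < s i) (c : A → ℝ) :
    (avg B fun y => avg B fun y' => (inner ℝ (lab I c ψ y) (lab I c ψ y')) ^ 2) =
      ∑ i ∈ I, c i ^ 4 := by
  simp only [inner_lab]
  rw [h.hs_RR hI fun i => c i * c i]
  exact sum_congr rfl fun i _ => by ring

/-- the size of one Gram column: `avg_x' ⟨u x, u x'⟩² ≤ K ‖u x‖²` -/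
theorem gram_colL (h : IsSvd A B M s φ ψ) {I : Finset A} {c : A → ℝ} {K : ℝ} (hK0 : 0 ≤ K)
    (hK : ∀ i ∈ I, c i ^ 2 ≤ K) (x : ℤ) :
    (avg A fun x' => (inner ℝ (lab I c φ x') (lab I c φ x)) ^ 2) ≤ K * ‖lab I c φ x‖ ^ 2 :=
  h.potL_le' hK0 hK _

theorem gram_colR (h : IsSvd A B M s φ ψ) {I : Finset A} {c : A → ℝ} {K : ℝ} (hK0 : 0 ≤ K)
    (hK : ∀ i ∈ I, c i ^ 2 ≤ K) (y : ℤ) :
    (avg B fun y' => (inner ℝ (lab I c ψ y') (lab I c ψ y)) ^ 2) ≤ K * ‖lab I c ψ y‖ ^ 2 :=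
  h.potR_le' hK0 hK _

end IsSvd

/-! ### the weights `√(σ s i)` -/

/-- the weights of the critical families -/
def wgt {A : Finset ℤ} (σ : ℝ) (s : A → ℝ) (i : A) : ℝ := √(σ * s i)

theorem wgt_sq {A : Finset ℤ} {σ : ℝ} (hσ : 0 ≤ σ) {s : A → ℝ} (hs : ∀ i, 0 ≤ s i) (i : A) :
    wgt σ s i ^ 2 = σ * s i := Real.sq_sqrt (mul_nonneg hσ (hs i))

namespace IsSvd

variable {A B : Finset ℤ} {M : ℤ → ℤ → ℝ} {s : A → ℝ} {φ ψ : A → ℤ → ℝ} {σ S : ℝ}
  {I : Finset A}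

/-- the left family -/
def uu (_h : IsSvd A B M s φ ψ) (σ : ℝ) (I : Finset A) (x : ℤ) : EuclideanSpace ℝ A :=
  lab I (wgt σ s) φ x

/-- the right family -/
def vv (_h : IsSvd A B M s φ ψ) (σ : ℝ) (I : Finset A) (y : ℤ) : EuclideanSpace ℝ A :=
  lab I (wgt σ s) ψ y

/-- `⟨u x, v y⟩ = σ * lev` -/
theorem inner_uv (h : IsSvd A B M s φ ψ) (hσ : 0 ≤ σ) (I : Finset A) (x y : ℤ) :
    inner ℝ (h.uu σ I x) (h.vv σ I y) = σ * lev s φ ψ I x y := by
  unfold uu vv lev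
  rw [inner_lab, mul_sum]
  refine sum_congr rfl fun i _ => ?_
  rw [← sq, wgt_sq hσ h.s0]; ring

theorem norm_u_sq (h : IsSvd A B M s φ ψ) (hσ : 0 ≤ σ) (I : Finset A) (x : ℤ) :
    ‖h.uu σ I x‖ ^ 2 = σ * ∑ i ∈ I, s i * φ i x ^ 2 := by
  unfold uu
  rw [norm_lab_sq, mul_sum]
  refine sum_congr rfl fun i _ => ?_
  rw [wgt_sq hσ h.s0]; ring

theorem norm_v_sq (h : IsSvd A B M s φ ψ) (hσ : 0 ≤ σ) (I : Finset A) (y : ℤ) :
    ‖h.vv σ I y‖ ^ 2 = σ * ∑ i ∈ I, s i * ψ i y ^ 2 := by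
  unfold vv
  rw [norm_lab_sq, mul_sum]
  refine sum_congr rfl fun i _ => ?_
  rw [wgt_sq hσ h.s0]; ring

/-- rows: `‖u x‖² ≤ avg_B (lev x)²` -/
theorem norm_u_le (h : IsSvd A B M s φ ψ) (hσ : 0 ≤ σ) (hI : ∀ i ∈ I, σ ≤ s i) (x : ℤ) :
    ‖h.uu σ I x‖ ^ 2 ≤ avg B fun y => lev s φ ψ I x y ^ 2 := by
  rw [h.norm_u_sq hσ, h.lev_row, mul_sum]
  refine sum_le_sum fun i hi => ?_
  rw [sq (s i), ← mul_assoc]
  exact mul_le_mul_of_nonneg_right (mul_le_mul_of_nonneg_right (hI i hi) (h.s0 i)) (sq_nonneg _)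

theorem norm_v_le (h : IsSvd A B M s φ ψ) (hσ : 0 ≤ σ) (hI : ∀ i ∈ I, σ ≤ s i) (y : ℤ) :
    ‖h.vv σ I y‖ ^ 2 ≤ avg A fun x => lev s φ ψ I x y ^ 2 := by
  rw [h.norm_v_sq hσ, h.lev_col, mul_sum]
  refine sum_le_sum fun i hi => ?_
  rw [sq (s i), ← mul_assoc]
  exact mul_le_mul_of_nonneg_right (mul_le_mul_of_nonneg_right (hI i hi) (h.s0 i)) (sq_nonneg _)

/-- rows: `‖u x‖² ≤ avg_B (M x)²` -/
theorem norm_u_le' (h : IsSvd A B M s φ ψ) (hσ : 0 ≤ σ) (hI : ∀ i ∈ I, σ ≤ s i) {x : ℤ}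
    (hx : x ∈ A) : ‖h.uu σ I x‖ ^ 2 ≤ avg B fun y => M x y ^ 2 :=
  (h.norm_u_le hσ hI x).trans (h.lev_row_le I hx)

theorem norm_v_le' (h : IsSvd A B M s φ ψ) (hσ : 0 ≤ σ) (hI : ∀ i ∈ I, σ ≤ s i) {y : ℤ}
    (hy : y ∈ B) : ‖h.vv σ I y‖ ^ 2 ≤ avg A fun x => M x y ^ 2 :=
  (h.norm_v_le hσ hI y).trans (h.lev_col_le I hy)

/-- potentials -/
theorem pot_u (h : IsSvd A B M s φ ψ) (hσ : 0 ≤ σ) (hS0 : 0 ≤ S) (hS : ∀ i ∈ I, s i ≤ S)
    (w : EuclideanSpace ℝ A) :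
    (avg A fun x => (inner ℝ (h.uu σ I x) w) ^ 2) ≤ σ * S * ‖w‖ ^ 2 :=
  h.potL_le' (mul_nonneg hσ hS0)
    (fun i hi => by rw [wgt_sq hσ h.s0]; exact mul_le_mul_of_nonneg_left (hS i hi) hσ) w

theorem pot_v (h : IsSvd A B M s φ ψ) (hσ : 0 ≤ σ) (hS0 : 0 ≤ S) (hS : ∀ i ∈ I, s i ≤ S)
    (w : EuclideanSpace ℝ A) :
    (avg B fun y => (inner ℝ (h.vv σ I y) w) ^ 2) ≤ σ * S * ‖w‖ ^ 2 :=
  h.potR_le' (mul_nonneg hσ hS0)
    (fun i hi => by rw [wgt_sq hσ h.s0]; exact mul_le_mul_of_nonneg_left (hS i hi) hσ) w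

theorem opn_u (h : IsSvd A B M s φ ψ) (hσ : 0 ≤ σ) (hS0 : 0 ≤ S) (hS : ∀ i ∈ I, s i ≤ S) :
    opn A (h.uu σ I) ≤ σ * S * A.card :=
  h.opnL_le (mul_nonneg hσ hS0)
    fun i hi => by rw [wgt_sq hσ h.s0]; exact mul_le_mul_of_nonneg_left (hS i hi) hσ

theorem opn_v (h : IsSvd A B M s φ ψ) (hσ : 0 ≤ σ) (hS0 : 0 ≤ S) (hS : ∀ i ∈ I, s i ≤ S) :
    opn B (h.vv σ I) ≤ σ * S * B.card :=
  h.opnR_le (mul_nonneg hσ hS0)
    fun i hi => by rw [wgt_sq hσ h.s0]; exact mul_le_mul_of_nonneg_left (hS i hi) hσ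

/-- energies -/
theorem energy_u (h : IsSvd A B M s φ ψ) (hσ : 0 ≤ σ) (I : Finset A) :
    (avg A fun x => ‖h.uu σ I x‖ ^ 2) = σ * ∑ i ∈ I, s i := by
  unfold uu
  rw [h.normL, mul_sum]
  exact sum_congr rfl fun i _ => wgt_sq hσ h.s0 i

theorem energy_v (h : IsSvd A B M s φ ψ) (hσ : 0 ≤ σ) (I : Finset A) :
    (avg B fun y => ‖h.vv σ I y‖ ^ 2) = σ * ∑ i ∈ I, s i := by
  classical
  have e1 : ∀ y, ‖h.vv σ I y‖ ^ 2 = ‖lab (I.filter fun i => 0 < s i) (wgt σ s) ψ y‖ ^ 2 := by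
    intro y
    unfold vv
    rw [norm_lab_sq, norm_lab_sq, sum_filter]
    refine sum_congr rfl fun i _ => ?_
    split_ifs with hi
    · rfl
    · rw [wgt_sq hσ h.s0, le_antisymm (not_lt.1 hi) (h.s0 i), mul_zero, zero_mul]
  simp only [e1]
  rw [h.normR (I := I.filter fun i => 0 < s i) (fun i hi => (mem_filter.1 hi).2), sum_filter,
    mul_sum]
  refine sum_congr rfl fun i _ => ?_
  split_ifs with hi
  · exact wgt_sq hσ h.s0 i
  · rw [le_antisymm (not_lt.1 hi) (h.s0 i), mul_zero]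

theorem energy_u_le (h : IsSvd A B M s φ ψ) (hσ : 0 ≤ σ) (hI : ∀ i ∈ I, σ ≤ s i) :
    (avg A fun x => ‖h.uu σ I x‖ ^ 2) ≤ avg A fun x => avg B fun y => M x y ^ 2 := by
  rw [h.energy_u hσ, ← h.sum_sq, mul_sum]
  refine (sum_le_sum fun i hi => ?_).trans
    (sum_le_sum_of_subset_of_nonneg (subset_univ I) fun _ _ _ => by positivity)
  rw [sq]
  exact mul_le_mul_of_nonneg_right (hI i hi) (h.s0 i)

theorem energy_v_le (h : IsSvd A B M s φ ψ) (hσ : 0 ≤ σ) (hI : ∀ i ∈ I, σ ≤ s i) :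
    (avg B fun y => ‖h.vv σ I y‖ ^ 2) ≤ avg A fun x => avg B fun y => M x y ^ 2 := by
  rw [h.energy_v hσ, ← h.sum_sq, mul_sum]
  refine (sum_le_sum fun i hi => ?_).trans
    (sum_le_sum_of_subset_of_nonneg (subset_univ I) fun _ _ _ => by positivity)
  rw [sq]
  exact mul_le_mul_of_nonneg_right (hI i hi) (h.s0 i)

/-- the label Gram kernels -/
theorem gram_u (h : IsSvd A B M s φ ψ) (hσ : 0 ≤ σ) (I : Finset A) :
    (avg A fun x => avg A fun x' => (inner ℝ (h.uu σ I x) (h.uu σ I x')) ^ 2) =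
      ∑ i ∈ I, (σ * s i) ^ 2 := by
  unfold uu
  rw [h.gramL]
  refine sum_congr rfl fun i _ => ?_
  rw [show wgt σ s i ^ 4 = (wgt σ s i ^ 2) ^ 2 by ring, wgt_sq hσ h.s0]

/-- pairing with the kernel: the energy of the level part -/
theorem pair_uv (h : IsSvd A B M s φ ψ) (hσ : 0 < σ) (I : Finset A) :
    (avg A fun x => avg B fun y => M x y * (σ⁻¹ * inner ℝ (h.uu σ I x) (h.vv σ I y))) =
      ∑ i ∈ I, s i ^ 2 := by
  have e1 : (avg A fun x => avg B fun y => M x y * (σ⁻¹ * inner ℝ (h.uu σ I x) (h.vv σ I y))) =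
      avg A fun x => avg B fun y => M x y * ∑ i ∈ I, s i * (φ i x * ψ i y) := by
    refine avg_congr fun x _ => avg_congr fun y _ => ?_
    rw [h.inner_uv hσ.le, ← mul_assoc σ⁻¹, inv_mul_cancel₀ hσ.ne', one_mul]
    rfl
  rw [e1, h.test I s]
  exact sum_congr rfl fun i _ => by ring

/-- the singular functions live on the rows of the kernel -/
theorem phi_zero (h : IsSvd A B M s φ ψ) {i : A} (hi : 0 < s i) {x : ℤ}
    (hx : ∀ y ∈ B, M x y = 0) : φ i x = 0 := by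
  by_cases hA : x ∈ A
  · have h1 := h.appL i x hA
    have h2 : (avg B fun y => M x y * ψ i y) = 0 := by
      rw [avg_congr fun y hy => by rw [hx y hy, zero_mul]]
      simp [avg]
    rw [h2] at h1
    exact (mul_eq_zero.1 h1.symm).resolve_left hi.ne'
  · exact h.offL i x hA

theorem psi_zero (h : IsSvd A B M s φ ψ) {i : A} (hi : 0 < s i) {y : ℤ}
    (hy : ∀ x ∈ A, M x y = 0) : ψ i y = 0 := by
  by_cases hB : y ∈ B
  · have h1 := h.appR i y hB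
    have h2 : (avg A fun x => M x y * φ i x) = 0 := by
      rw [avg_congr fun x hx => by rw [hy x hx, zero_mul]]
      simp [avg]
    rw [h2] at h1
    exact (mul_eq_zero.1 h1.symm).resolve_left hi.ne'
  · exact h.offR i y hB

theorem u_zero (h : IsSvd A B M s φ ψ) (I : Finset A) {x : ℤ}
    (hx : ∀ y ∈ B, M x y = 0) : h.uu σ I x = 0 := by
  have h1 : ‖h.uu σ I x‖ ^ 2 = 0 := by
    unfold uu
    rw [norm_lab_sq]
    refine sum_eq_zero fun i _ => ?_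
    rcases (h.s0 i).eq_or_lt with h0 | h0
    · unfold wgt
      rw [← h0]; simp
    · rw [h.phi_zero h0 hx]; simp
  exact norm_eq_zero.1 (pow_eq_zero_iff (two_ne_zero) |>.1 h1)

theorem v_zero (h : IsSvd A B M s φ ψ) (I : Finset A) {y : ℤ}
    (hy : ∀ x ∈ A, M x y = 0) : h.vv σ I y = 0 := by
  have h1 : ‖h.vv σ I y‖ ^ 2 = 0 := by
    unfold vv
    rw [norm_lab_sq]
    refine sum_eq_zero fun i _ => ?_
    rcases (h.s0 i).eq_or_lt with h0 | h0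
    · unfold wgt
      rw [← h0]; simp
    · rw [h.psi_zero h0 hy]; simp
  exact norm_eq_zero.1 (pow_eq_zero_iff (two_ne_zero) |>.1 h1)

end IsSvd

end

end Vale.Agent.P141.H555
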