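import Vale.Agent.P141.H555.SvdF
import Vale.Agent.P141.H834.Cnt

/-!
# P141, CE, module M7 (Lev), file 2: singular data of one kernel on a box, normalised sums

`IsSvd A B M s φ ψ`: normalised singular values and singular functions of the kernel `M x y` on
`A × B` (indexed by `A`).  For any set `I` of indices: Bessel inequalities, rows and columns, the
level part `lev`, the projection kernel `prj`, the vector functions `lab` with their potentials.
-/

namespace Vale.Agent.P141.H555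

noncomputable section

open scoped BigOperators
open Finset Vale.Agent.P141.PL.H315 Vale.Agent.P141.H550 Vale.Agent.P141.H769
open Vale.Agent.P141.H834 (ext_coe sum_coe avg_coe cnt)

/-- normalised singular data of the kernel `M` on the box `A × B` -/
structure IsSvd (A B : Finset ℤ) (M : ℤ → ℤ → ℝ) (s : A → ℝ) (φ ψ : A → ℤ → ℝ) : Prop where
  s0 : ∀ i, 0 ≤ s i
  oL : ∀ i j, (avg A fun x => φ i x * φ j x) = if i = j then 1 else 0
  oR : ∀ i j, 0 < s i → (avg B fun y => ψ i y * ψ j y) = if i = j then 1 else 0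
  zR : ∀ i, s i = 0 → ∀ y, ψ i y = 0
  appR : ∀ i, ∀ y ∈ B, (avg A fun x => M x y * φ i x) = s i * ψ i y
  appL : ∀ i, ∀ x ∈ A, (avg B fun y => M x y * ψ i y) = s i * φ i x
  dec : ∀ x ∈ A, ∀ y ∈ B, M x y = ∑ i, s i * (φ i x * ψ i y)
  offL : ∀ i, ∀ x ∉ A, φ i x = 0
  offR : ∀ i, ∀ y ∉ B, ψ i y = 0

theorem ext_off {A : Finset ℤ} (f : A → ℝ) {x : ℤ} (hx : x ∉ A) : H834.ext A f x = 0 := by
  unfold H834.ext; rw [dif_neg hx]

theorem exists_isSvd {A B : Finset ℤ} (hA : A.Nonempty) (hB : B.Nonempty) (M : ℤ → ℤ → ℝ) :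
    ∃ (s : A → ℝ) (φ ψ : A → ℤ → ℝ), IsSvd A B M s φ ψ := by
  classical
  have hcA : (0 : ℝ) < A.card := by exact_mod_cast hA.card_pos
  have hcB : (0 : ℝ) < B.card := by exact_mod_cast hB.card_pos
  set a : ℝ := √(A.card : ℝ) with ha
  set b : ℝ := √(B.card : ℝ) with hb
  have ha0 : 0 < a := Real.sqrt_pos.2 hcA
  have hb0 : 0 < b := Real.sqrt_pos.2 hcB
  have ha2 : (A.card : ℝ) = a * a := (Real.mul_self_sqrt hcA.le).symm
  have hb2 : (B.card : ℝ) = b * b := (Real.mul_self_sqrt hcB.le).symm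
  obtain ⟨s, φ, ψ, hs0, hφ, hcomp, hψ, hz, hR, hL, hM⟩ :=
    exists_svdF (X := A) (Y := B) fun x y => (a * b)⁻¹ * M x y
  refine ⟨s, fun i x => a * H834.ext A (φ i) x, fun i y => b * H834.ext B (ψ i) y, hs0, ?_, ?_, ?_, ?_, ?_,
    ?_, ?_, ?_⟩
  · intro i j
    rw [avg_coe, ← hφ i j, ha2, mul_sum]
    refine sum_congr rfl fun x _ => ?_
    rw [ext_coe A _ x, ext_coe A _ x]
    field_simp
  · intro i j hi
    rw [avg_coe, ← hψ i j hi, hb2, mul_sum]
    refine sum_congr rfl fun x _ => ?_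
    rw [ext_coe B _ x, ext_coe B _ x]
    field_simp
  · intro i hi y
    by_cases hy : y ∈ B
    · rw [show H834.ext B (ψ i) y = ψ i ⟨y, hy⟩ from ext_coe B _ ⟨y, hy⟩, hz i hi, mul_zero]
    · rw [ext_off _ hy, mul_zero]
  · intro i y hy
    have h1 := hR i ⟨y, hy⟩
    rw [show H834.ext B (ψ i) y = ψ i ⟨y, hy⟩ from ext_coe B _ ⟨y, hy⟩, avg_coe, ha2]
    calc (a * a)⁻¹ * ∑ x : A, M x y * (a * H834.ext A (φ i) x) =
        b * ∑ x : A, (a * b)⁻¹ * M x y * φ i x := by
          rw [mul_sum, mul_sum]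
          refine sum_congr rfl fun x _ => ?_
          rw [ext_coe A _ x]
          field_simp
      _ = s i * (b * ψ i ⟨y, hy⟩) := by rw [h1]; ring
  · intro i x hx
    have h1 := hL i ⟨x, hx⟩
    rw [show H834.ext A (φ i) x = φ i ⟨x, hx⟩ from ext_coe A _ ⟨x, hx⟩, avg_coe, hb2]
    calc (b * b)⁻¹ * ∑ y : B, M x y * (b * H834.ext B (ψ i) y) =
        a * ∑ y : B, (a * b)⁻¹ * M x y * ψ i y := by
          rw [mul_sum, mul_sum]
          refine sum_congr rfl fun y _ => ?_
          rw [ext_coe B _ y]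
          field_simp
      _ = s i * (a * φ i ⟨x, hx⟩) := by rw [h1]; ring
  · intro x hx y hy
    have h1 := hM ⟨x, hx⟩ ⟨y, hy⟩
    have h2 : M x y = a * b * ((a * b)⁻¹ * M x y) := by field_simp
    rw [h2]
    simp only at h1
    rw [h1, mul_sum]
    refine sum_congr rfl fun i _ => ?_
    rw [show H834.ext A (φ i) x = φ i ⟨x, hx⟩ from ext_coe A _ ⟨x, hx⟩,
      show H834.ext B (ψ i) y = ψ i ⟨y, hy⟩ from ext_coe B _ ⟨y, hy⟩]
    ring
  · intro i x hx
    rw [ext_off _ hx, mul_zero]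
  · intro i y hy
    rw [ext_off _ hy, mul_zero]

/-- a sum of functions inside a bilinear average -/
theorem avg_sum_mul {X ι : Type*} (Q : Finset X) (I : Finset ι) (f : ι → X → ℝ) (g : X → ℝ) :
    (avg Q fun x => g x * ∑ i ∈ I, f i x) = ∑ i ∈ I, avg Q fun x => g x * f i x := by
  rw [← avg_sum]
  exact avg_congr fun x _ => mul_sum _ _ _

/-- Pythagoras -/
theorem avg_sq_sum {X ι : Type*} [DecidableEq ι] {Q : Finset X} {I : Finset ι} {f : ι → X → ℝ}
    (h : ∀ i ∈ I, ∀ j ∈ I, (avg Q fun x => f i x * f j x) = if i = j then 1 else 0) (c : ι → ℝ) :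
    (avg Q fun x => (∑ i ∈ I, c i * f i x) ^ 2) = ∑ i ∈ I, c i ^ 2 := by
  have e1 : ∀ x, (∑ i ∈ I, c i * f i x) ^ 2 = ∑ i ∈ I, ∑ j ∈ I, c i * c j * (f i x * f j x) := by
    intro x
    rw [sq, Finset.sum_mul_sum]
    exact sum_congr rfl fun i _ => sum_congr rfl fun j _ => by ring
  simp only [e1]
  rw [avg_sum]
  refine sum_congr rfl fun i hi => ?_
  rw [avg_sum]
  have e2 : ∀ j ∈ I, (avg Q fun x => c i * c j * (f i x * f j x)) =
      if i = j then c i ^ 2 else 0 := by
    intro j hj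
    rw [avg_mul_left, h i hi j hj]
    split_ifs with hij
    · subst hij; ring
    · rw [mul_zero]
  rw [sum_congr rfl e2, sum_ite_eq, if_pos hi]

/-- Bessel -/
theorem bessel {X ι : Type*} [DecidableEq ι] {Q : Finset X} {I : Finset ι} {f : ι → X → ℝ}
    (h : ∀ i ∈ I, ∀ j ∈ I, (avg Q fun x => f i x * f j x) = if i = j then 1 else 0) (g : X → ℝ) :
    ∑ i ∈ I, (avg Q fun x => g x * f i x) ^ 2 ≤ avg Q fun x => g x ^ 2 := by
  set c : ι → ℝ := fun i => avg Q fun x => g x * f i x with hc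
  have h1 : 0 ≤ avg Q fun x => (g x - ∑ i ∈ I, c i * f i x) ^ 2 := avg_nonneg fun _ _ => sq_nonneg _
  have h2 : (avg Q fun x => (g x - ∑ i ∈ I, c i * f i x) ^ 2) =
      (avg Q fun x => g x ^ 2) + ((-2) * (avg Q fun x => g x * ∑ i ∈ I, c i * f i x) +
        avg Q fun x => (∑ i ∈ I, c i * f i x) ^ 2) := by
    rw [← avg_mul_left, ← avg_add, ← avg_add]
    exact avg_congr fun x _ => by ring
  have h3 : (avg Q fun x => g x * ∑ i ∈ I, c i * f i x) = ∑ i ∈ I, c i ^ 2 := by
    rw [avg_sum_mul]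
    refine sum_congr rfl fun i _ => ?_
    have : (avg Q fun x => g x * (c i * f i x)) = c i * avg Q fun x => g x * f i x := by
      rw [← avg_mul_left]
      exact avg_congr fun x _ => by ring
    rw [this, sq]
  rw [h2, h3, avg_sq_sum h c] at h1
  linarith

namespace IsSvd

variable {A B : Finset ℤ} {M : ℤ → ℤ → ℝ} {s : A → ℝ} {φ ψ : A → ℤ → ℝ}

/-- the right singular functions are orthonormal on sets of indices with positive singular value -/
theorem oR' (h : IsSvd A B M s φ ψ) {I : Finset A} (hI : ∀ i ∈ I, 0 < s i) :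
    ∀ i ∈ I, ∀ j ∈ I, (avg B fun y => ψ i y * ψ j y) = if i = j then 1 else 0 :=
  fun i hi j _ => h.oR i j (hI i hi)

theorem nonempty (h : IsSvd A B M s φ ψ) (i : A) (hi : 0 < s i) : B.Nonempty := by
  by_contra hB
  rw [Finset.not_nonempty_iff_eq_empty] at hB
  have := h.oR i i hi
  subst hB
  simp [avg] at this

/-! ### sums of one family -/

theorem sumL (h : IsSvd A B M s φ ψ) (I : Finset A) (c : A → ℝ) :
    (avg A fun x => (∑ i ∈ I, c i * φ i x) ^ 2) = ∑ i ∈ I, c i ^ 2 :=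
  avg_sq_sum (fun i _ j _ => h.oL i j) c

theorem sumR (h : IsSvd A B M s φ ψ) {I : Finset A} (hI : ∀ i ∈ I, 0 < s i) (c : A → ℝ) :
    (avg B fun y => (∑ i ∈ I, c i * ψ i y) ^ 2) = ∑ i ∈ I, c i ^ 2 :=
  avg_sq_sum (h.oR' hI) c

theorem sumR_le (h : IsSvd A B M s φ ψ) (I : Finset A) (c : A → ℝ) :
    (avg B fun y => (∑ i ∈ I, c i * ψ i y) ^ 2) ≤ ∑ i ∈ I, c i ^ 2 := by
  have e1 : ∀ y, ∑ i ∈ I, c i * ψ i y = ∑ i ∈ I.filter (fun i => 0 < s i), c i * ψ i y := by
    intro y
    refine (sum_subset (filter_subset _ _) fun i hi hn => ?_).symm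
    have : s i = 0 := le_antisymm (not_lt.1 fun h' => hn (mem_filter.2 ⟨hi, h'⟩)) (h.s0 i)
    rw [h.zR i this, mul_zero]
  simp only [e1]
  rw [h.sumR (I := I.filter fun i => 0 < s i) (fun i hi => (mem_filter.1 hi).2) c]
  exact sum_le_sum_of_subset_of_nonneg (filter_subset _ _) fun _ _ _ => sq_nonneg _

theorem besL (h : IsSvd A B M s φ ψ) (I : Finset A) (g : ℤ → ℝ) :
    ∑ i ∈ I, (avg A fun x => g x * φ i x) ^ 2 ≤ avg A fun x => g x ^ 2 :=
  bessel (fun i _ j _ => h.oL i j) g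

theorem besR (h : IsSvd A B M s φ ψ) (I : Finset A) (g : ℤ → ℝ) :
    ∑ i ∈ I, (avg B fun y => g y * ψ i y) ^ 2 ≤ avg B fun y => g y ^ 2 := by
  have e1 : ∑ i ∈ I, (avg B fun y => g y * ψ i y) ^ 2 =
      ∑ i ∈ I.filter (fun i => 0 < s i), (avg B fun y => g y * ψ i y) ^ 2 := by
    refine (sum_subset (filter_subset _ _) fun i hi hn => ?_).symm
    have : s i = 0 := le_antisymm (not_lt.1 fun h' => hn (mem_filter.2 ⟨hi, h'⟩)) (h.s0 i)
    simp [h.zR i this, avg]
  rw [e1]
  exact bessel (h.oR' (I := I.filter fun i => 0 < s i) fun i hi => (mem_filter.1 hi).2) g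

/-! ### rows, columns, energies -/

theorem row (h : IsSvd A B M s φ ψ) {x : ℤ} (hx : x ∈ A) :
    ∑ i, s i ^ 2 * φ i x ^ 2 = avg B fun y => M x y ^ 2 := by
  have e1 : (avg B fun y => M x y ^ 2) = avg B fun y => M x y * ∑ i, s i * (φ i x * ψ i y) :=
    avg_congr fun y hy => by rw [← h.dec x hx y hy, sq]
  rw [e1, avg_sum_mul]
  refine sum_congr rfl fun i _ => ?_
  have e2 : (avg B fun y => M x y * (s i * (φ i x * ψ i y))) =
      s i * φ i x * avg B fun y => M x y * ψ i y := by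
    rw [← avg_mul_left]
    exact avg_congr fun y _ => by ring
  rw [e2, h.appL i x hx]; ring

theorem col (h : IsSvd A B M s φ ψ) {y : ℤ} (hy : y ∈ B) :
    ∑ i, s i ^ 2 * ψ i y ^ 2 = avg A fun x => M x y ^ 2 := by
  have e1 : (avg A fun x => M x y ^ 2) = avg A fun x => M x y * ∑ i, s i * (φ i x * ψ i y) :=
    avg_congr fun x hx => by rw [← h.dec x hx y hy, sq]
  rw [e1, avg_sum_mul]
  refine sum_congr rfl fun i _ => ?_
  have e2 : (avg A fun x => M x y * (s i * (φ i x * ψ i y))) =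
      s i * ψ i y * avg A fun x => M x y * φ i x := by
    rw [← avg_mul_left]
    exact avg_congr fun x _ => by ring
  rw [e2, h.appR i y hy]; ring

theorem norm_phi (h : IsSvd A B M s φ ψ) (i : A) : (avg A fun x => φ i x ^ 2) = 1 := by
  have := h.oL i i
  rw [if_pos rfl] at this
  rw [← this]
  exact avg_congr fun x _ => by ring

theorem norm_psi (h : IsSvd A B M s φ ψ) {i : A} (hi : 0 < s i) :
    (avg B fun y => ψ i y ^ 2) = 1 := by
  have := h.oR i i hi
  rw [if_pos rfl] at this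
  rw [← this]
  exact avg_congr fun x _ => by ring

theorem sum_sq (h : IsSvd A B M s φ ψ) :
    ∑ i, s i ^ 2 = avg A fun x => avg B fun y => M x y ^ 2 := by
  have e1 : (avg A fun x => avg B fun y => M x y ^ 2) = avg A fun x => ∑ i, s i ^ 2 * φ i x ^ 2 :=
    avg_congr fun x hx => (h.row hx).symm
  rw [e1, avg_sum]
  refine sum_congr rfl fun i _ => ?_
  rw [avg_mul_left, h.norm_phi, mul_one]

theorem gram (h : IsSvd A B M s φ ψ) {x c : ℤ} (hx : x ∈ A) (hc : c ∈ A) :
    g2 B M x c = ∑ i, s i ^ 2 * (φ i x * φ i c) := by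
  unfold g2
  have e1 : (avg B fun y => M x y * M c y) = avg B fun y => M x y * ∑ i, s i * (φ i c * ψ i y) :=
    avg_congr fun y hy => by rw [← h.dec c hc y hy]
  rw [e1, avg_sum_mul]
  refine sum_congr rfl fun i _ => ?_
  have e2 : (avg B fun y => M x y * (s i * (φ i c * ψ i y))) =
      s i * φ i c * avg B fun y => M x y * ψ i y := by
    rw [← avg_mul_left]
    exact avg_congr fun y _ => by ring
  rw [e2, h.appL i x hx]; ring

/-- a double average of the square of a kernel `∑ c φ φ` -/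
theorem hs_LL (h : IsSvd A B M s φ ψ) (I : Finset A) (c : A → ℝ) :
    (avg A fun x => avg A fun x' => (∑ i ∈ I, c i * (φ i x * φ i x')) ^ 2) =
      ∑ i ∈ I, c i ^ 2 := by
  have e1 : ∀ x, (avg A fun x' => (∑ i ∈ I, c i * (φ i x * φ i x')) ^ 2) =
      ∑ i ∈ I, c i ^ 2 * φ i x ^ 2 := by
    intro x
    have := h.sumL I fun i => c i * φ i x
    simp only [mul_pow] at this
    rw [← this]
    exact avg_congr fun x' _ => by
      congr 1
      exact sum_congr rfl fun i _ => by ring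
  simp only [e1]
  rw [avg_sum]
  refine sum_congr rfl fun i _ => ?_
  rw [avg_mul_left, h.norm_phi, mul_one]

theorem hs_RR (h : IsSvd A B M s φ ψ) {I : Finset A} (hI : ∀ i ∈ I, 0 < s i) (c : A → ℝ) :
    (avg B fun y => avg B fun y' => (∑ i ∈ I, c i * (ψ i y * ψ i y')) ^ 2) =
      ∑ i ∈ I, c i ^ 2 := by
  have e1 : ∀ y, (avg B fun y' => (∑ i ∈ I, c i * (ψ i y * ψ i y')) ^ 2) =
      ∑ i ∈ I, c i ^ 2 * ψ i y ^ 2 := by
    intro y
    have := h.sumR hI fun i => c i * ψ i y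
    simp only [mul_pow] at this
    rw [← this]
    exact avg_congr fun x' _ => by
      congr 1
      exact sum_congr rfl fun i _ => by ring
  simp only [e1]
  rw [avg_sum]
  refine sum_congr rfl fun i hi => ?_
  rw [avg_mul_left, h.norm_psi (hI i hi), mul_one]

theorem hs_LR (h : IsSvd A B M s φ ψ) {I : Finset A} (hI : ∀ i ∈ I, 0 < s i) (c : A → ℝ) :
    (avg A fun x => avg B fun y => (∑ i ∈ I, c i * (φ i x * ψ i y)) ^ 2) =
      ∑ i ∈ I, c i ^ 2 := by
  have e1 : ∀ x, (avg B fun y => (∑ i ∈ I, c i * (φ i x * ψ i y)) ^ 2) =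
      ∑ i ∈ I, c i ^ 2 * φ i x ^ 2 := by
    intro x
    have := h.sumR hI fun i => c i * φ i x
    simp only [mul_pow] at this
    rw [← this]
    exact avg_congr fun x' _ => by
      congr 1
      exact sum_congr rfl fun i _ => by ring
  simp only [e1]
  rw [avg_sum]
  refine sum_congr rfl fun i _ => ?_
  rw [avg_mul_left, h.norm_phi, mul_one]

theorem sum_four (h : IsSvd A B M s φ ψ) :
    ∑ i, s i ^ 4 = avg A fun x => avg A fun c => g2 B M x c ^ 2 := by
  have e1 : (avg A fun x => avg A fun c => g2 B M x c ^ 2) =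
      avg A fun x => avg A fun x' => (∑ i, s i ^ 2 * (φ i x * φ i x')) ^ 2 :=
    avg_congr fun x hx => avg_congr fun c hc => by rw [h.gram hx hc]
  rw [e1, h.hs_LL univ fun i => s i ^ 2]
  exact sum_congr rfl fun i _ => by ring

/-! ### testing `M` and its level parts -/

/-- `⟨M, ∑ c φ ψ⟩ = ∑ c s` -/
theorem test (h : IsSvd A B M s φ ψ) (I : Finset A) (c : A → ℝ) :
    (avg A fun x => avg B fun y => M x y * ∑ i ∈ I, c i * (φ i x * ψ i y)) =
      ∑ i ∈ I, c i * s i := by
  have e1 : ∀ x ∈ A, (avg B fun y => M x y * ∑ i ∈ I, c i * (φ i x * ψ i y)) =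
      ∑ i ∈ I, c i * s i * φ i x ^ 2 := by
    intro x hx
    rw [avg_sum_mul]
    refine sum_congr rfl fun i _ => ?_
    have e2 : (avg B fun y => M x y * (c i * (φ i x * ψ i y))) =
        c i * φ i x * avg B fun y => M x y * ψ i y := by
      rw [← avg_mul_left]
      exact avg_congr fun y _ => by ring
    rw [e2, h.appL i x hx]; ring
  rw [avg_congr e1, avg_sum]
  refine sum_congr rfl fun i _ => ?_
  rw [avg_mul_left, h.norm_phi, mul_one]

end IsSvd

/-- the part of the kernel which belongs to the indices `I` -/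
def lev {A : Finset ℤ} (s : A → ℝ) (φ ψ : A → ℤ → ℝ) (I : Finset A) (x y : ℤ) : ℝ :=
  ∑ i ∈ I, s i * (φ i x * ψ i y)

/-- the projection kernel of the indices `I` -/
def prj {A : Finset ℤ} (φ : A → ℤ → ℝ) (I : Finset A) (x c : ℤ) : ℝ :=
  ∑ i ∈ I, φ i x * φ i c

theorem prj_symm {A : Finset ℤ} (φ : A → ℤ → ℝ) (I : Finset A) (x c : ℤ) :
    prj φ I x c = prj φ I c x := by
  unfold prj; exact sum_congr rfl fun i _ => mul_comm _ _

theorem prj_self {A : Finset ℤ} (φ : A → ℤ → ℝ) (I : Finset A) (x : ℤ) :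
    prj φ I x x = ∑ i ∈ I, φ i x ^ 2 := by
  unfold prj; exact sum_congr rfl fun i _ => by ring

theorem prj_self_nonneg {A : Finset ℤ} (φ : A → ℤ → ℝ) (I : Finset A) (x : ℤ) :
    0 ≤ prj φ I x x := by
  rw [prj_self]; exact sum_nonneg fun _ _ => sq_nonneg _

theorem prj_sq_le {A : Finset ℤ} (φ : A → ℤ → ℝ) (I : Finset A) (x c : ℤ) :
    prj φ I x c ^ 2 ≤ prj φ I x x * prj φ I c c := by
  rw [prj_self, prj_self]
  exact sum_mul_sq_le_sq_mul_sq I _ _

namespace IsSvd

variable {A B : Finset ℤ} {M : ℤ → ℤ → ℝ} {s : A → ℝ} {φ ψ : A → ℤ → ℝ}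

theorem lev_univ (h : IsSvd A B M s φ ψ) {x y : ℤ} (hx : x ∈ A) (hy : y ∈ B) :
    lev s φ ψ univ x y = M x y := (h.dec x hx y hy).symm

/-- decomposition into two parts -/
theorem lev_add_compl (h : IsSvd A B M s φ ψ) (I : Finset A) {x y : ℤ} (hx : x ∈ A)
    (hy : y ∈ B) : lev s φ ψ I x y + lev s φ ψ Iᶜ x y = M x y := by
  classical
  rw [← h.lev_univ hx hy]
  unfold lev
  exact sum_add_sum_compl I _

/-- `M`-rows of a level part -/
theorem lev_row (h : IsSvd A B M s φ ψ) (I : Finset A) (x : ℤ) :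
    (avg B fun y => lev s φ ψ I x y ^ 2) = ∑ i ∈ I, s i ^ 2 * φ i x ^ 2 := by
  classical
  have e0 : ∀ y, lev s φ ψ I x y = ∑ i ∈ I.filter (fun i => 0 < s i), s i * φ i x * ψ i y := by
    intro y
    unfold lev
    rw [sum_filter]
    refine sum_congr rfl fun i _ => ?_
    split_ifs with hi
    · ring
    · rw [le_antisymm (not_lt.1 hi) (h.s0 i), zero_mul]
  simp only [e0]
  rw [h.sumR (I := I.filter fun i => 0 < s i) (fun i hi => (mem_filter.1 hi).2)
    fun i => s i * φ i x, sum_filter]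
  refine sum_congr rfl fun i _ => ?_
  split_ifs with hi
  · ring
  · rw [le_antisymm (not_lt.1 hi) (h.s0 i)]; ring

theorem lev_col (h : IsSvd A B M s φ ψ) (I : Finset A) (y : ℤ) :
    (avg A fun x => lev s φ ψ I x y ^ 2) = ∑ i ∈ I, s i ^ 2 * ψ i y ^ 2 := by
  have := h.sumL I fun i => s i * ψ i y
  simp only [mul_pow] at this
  rw [← this]
  exact avg_congr fun x _ => by
    unfold lev
    congr 1
    exact sum_congr rfl fun i _ => by ring

theorem lev_row_le (h : IsSvd A B M s φ ψ) (I : Finset A) {x : ℤ} (hx : x ∈ A) :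
    (avg B fun y => lev s φ ψ I x y ^ 2) ≤ avg B fun y => M x y ^ 2 := by
  rw [h.lev_row, ← h.row hx]
  exact sum_le_sum_of_subset_of_nonneg (subset_univ _) fun _ _ _ => by positivity

theorem lev_col_le (h : IsSvd A B M s φ ψ) (I : Finset A) {y : ℤ} (hy : y ∈ B) :
    (avg A fun x => lev s φ ψ I x y ^ 2) ≤ avg A fun x => M x y ^ 2 := by
  rw [h.lev_col, ← h.col hy]
  exact sum_le_sum_of_subset_of_nonneg (subset_univ _) fun _ _ _ => by positivity

theorem lev_energy (h : IsSvd A B M s φ ψ) (I : Finset A) :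
    (avg A fun x => avg B fun y => lev s φ ψ I x y ^ 2) = ∑ i ∈ I, s i ^ 2 := by
  have : ∀ x, (avg B fun y => lev s φ ψ I x y ^ 2) = ∑ i ∈ I, s i ^ 2 * φ i x ^ 2 :=
    h.lev_row I
  simp only [this]
  rw [avg_sum]
  refine sum_congr rfl fun i _ => ?_
  rw [avg_mul_left, h.norm_phi, mul_one]

/-- the Gram kernel of a level part -/
theorem lev_gram (h : IsSvd A B M s φ ψ) (I : Finset A) (x c : ℤ) :
    g2 B (lev s φ ψ I) x c = ∑ i ∈ I, s i ^ 2 * (φ i x * φ i c) := by
  classical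
  unfold g2
  have e0 : ∀ y, lev s φ ψ I x y * lev s φ ψ I c y =
      ∑ i ∈ I, ∑ j ∈ I, s i * s j * (φ i x * φ j c) * (ψ i y * ψ j y) := by
    intro y
    unfold lev
    rw [Finset.sum_mul_sum]
    exact sum_congr rfl fun i _ => sum_congr rfl fun j _ => by ring
  simp only [e0]
  rw [avg_sum]
  refine sum_congr rfl fun i hi => ?_
  rw [avg_sum]
  have e1 : ∀ j ∈ I, (avg B fun y => s i * s j * (φ i x * φ j c) * (ψ i y * ψ j y)) =
      if i = j then s i ^ 2 * (φ i x * φ i c) else 0 := by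
    intro j _
    rw [avg_mul_left]
    rcases (h.s0 i).eq_or_lt with h0 | h0
    · rw [← h0]; simp
    · rw [h.oR i j h0]
      split_ifs with hij
      · subst hij; ring
      · rw [mul_zero]
  rw [sum_congr rfl e1, sum_ite_eq, if_pos hi]

theorem lev_four (h : IsSvd A B M s φ ψ) (I : Finset A) :
    (avg A fun x => avg A fun c => g2 B (lev s φ ψ I) x c ^ 2) = ∑ i ∈ I, s i ^ 4 := by
  have : ∀ x c, g2 B (lev s φ ψ I) x c = ∑ i ∈ I, s i ^ 2 * (φ i x * φ i c) := h.lev_gram I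
  simp only [this]
  rw [h.hs_LL I fun i => s i ^ 2]
  exact sum_congr rfl fun i _ => by ring

/-- the operator norm of a level part -/
theorem lev_op (h : IsSvd A B M s φ ψ) {I : Finset A} {S : ℝ} (hS0 : 0 ≤ S)
    (hS : ∀ i ∈ I, s i ≤ S) (b c : ℤ → ℝ) :
    |avg A fun x => avg B fun y => lev s φ ψ I x y * (b x * c y)| ≤
      S * (√(avg A fun x => b x ^ 2) * √(avg B fun y => c y ^ 2)) := by
  have e1 : (avg A fun x => avg B fun y => lev s φ ψ I x y * (b x * c y)) =
      ∑ i ∈ I, s i * ((avg A fun x => b x * φ i x) * avg B fun y => c y * ψ i y) := by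
    have e2 : ∀ x, (avg B fun y => lev s φ ψ I x y * (b x * c y)) =
        ∑ i ∈ I, b x * φ i x * (s i * avg B fun y => c y * ψ i y) := by
      intro x
      have e3 : ∀ y, lev s φ ψ I x y * (b x * c y) =
          ∑ i ∈ I, b x * φ i x * s i * (c y * ψ i y) := by
        intro y
        unfold lev
        rw [sum_mul]
        exact sum_congr rfl fun i _ => by ring
      simp only [e3]
      rw [avg_sum]
      refine sum_congr rfl fun i _ => ?_
      rw [avg_mul_left]; ring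
    simp only [e2]
    rw [avg_sum]
    refine sum_congr rfl fun i _ => ?_
    rw [avg_mul_right]; ring
  rw [e1]
  calc |∑ i ∈ I, s i * ((avg A fun x => b x * φ i x) * avg B fun y => c y * ψ i y)| ≤
      ∑ i ∈ I, |s i * ((avg A fun x => b x * φ i x) * avg B fun y => c y * ψ i y)| :=
        abs_sum_le_sum_abs _ _
    _ ≤ ∑ i ∈ I, S * (|avg A fun x => b x * φ i x| * |avg B fun y => c y * ψ i y|) := by
        refine sum_le_sum fun i hi => ?_
        rw [abs_mul, abs_of_nonneg (h.s0 i), abs_mul]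
        exact mul_le_mul_of_nonneg_right (hS i hi) (by positivity)
    _ = S * ∑ i ∈ I, |avg A fun x => b x * φ i x| * |avg B fun y => c y * ψ i y| := by
        rw [mul_sum]
    _ ≤ _ := by
        refine mul_le_mul_of_nonneg_left ?_ hS0
        refine (Real.sum_mul_le_sqrt_mul_sqrt I _ _).trans ?_
        refine mul_le_mul (Real.sqrt_le_sqrt ?_) (Real.sqrt_le_sqrt ?_) (Real.sqrt_nonneg _)
          (Real.sqrt_nonneg _)
        · simp only [sq_abs]
          exact h.besL I b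
        · simp only [sq_abs]
          exact h.besR I c

end IsSvd

end

end Vale.Agent.P141.H555
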