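import Vale.Agent.P141.H170.UEh
import Vale.Agent.P141.H958.Chg4

/-!
# P141, CE, M11: the mixed charge of a label event with the second input kept inside `phi`

`H170.mxr` charges `tr (P X_F P X_H)`.  Here the same statements with `mxp`, which charges
`tr (P X_F P phi X_H)`; no cap on `X_H` is needed, because
`tr (P X_F P phi X_H) ≤ |P X_F P|_HS (tr P X_H)^(1/2)`.
-/

namespace Vale.Agent.P141.H555

open Finset Matrix Vale.Agent.P075 Vale.Agent.P141.PL Vale.Agent.P141.PL.H588 Vale.Agent.P141.H736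
open Vale.Agent.P141.H170

noncomputable section

open scoped Classical

section mat

variable {n : Type*} [Fintype n] [DecidableEq n]

/-- `phi_split` against an arbitrary positive matrix -/
theorem trace_phi_split' {X P Y : Matrix n n ℝ} (hX : X.PosSemidef) (hP : Prj P)
    (hY : Y.PosSemidef) {ε : ℝ} (hε : 0 < ε) :
    (phi X * Y).trace ≤ (1 + ε) * (phi ((1 - P) * X * (1 - P)) * Y).trace
      + (1 + ε⁻¹) * (P * X * P * Y).trace := by
  have h1 := trace_mul_le_left hY (phi_split hX hP hε)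
  rw [Matrix.add_mul, trace_add, Matrix.smul_mul, Matrix.smul_mul, trace_smul, trace_smul,
    smul_eq_mul, smul_eq_mul] at h1
  exact h1

/-- `|P phi(Y) P|_HS² ≤ tr (P phi Y)` -/
theorem hs_prj_phi_sq_le {Y P : Matrix n n ℝ} (hY : Y.PosSemidef) (hP : Prj P) :
    hs (P * phi Y * P) ^ 2 ≤ (P * phi Y).trace := by
  have h1 : (P * phi Y * P).PosSemidef := psd_conj_symm (phi_psd hY) hP.1
  have h2 : (1 - P * phi Y * P).PosSemidef := by
    have h3 : (P * (1 - phi Y) * P).PosSemidef := psd_conj_symm (one_sub_phi_psd hY) hP.1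
    have h4 := h3.add hP.one_sub_psd
    have e : P * (1 - phi Y) * P + (1 - P) = 1 - P * phi Y * P := by
      have := hP.2
      calc P * (1 - phi Y) * P + (1 - P) = P * P - P * phi Y * P + (1 - P) := by noncomm_ring
        _ = _ := by rw [this]; abel
    rwa [e] at h4
  have h5 := hs_sq_le_cap h1 (l := 1) (by rwa [one_smul])
  rw [one_mul] at h5
  refine h5.trans (le_of_eq ?_)
  rw [trace_mul_comm, ← Matrix.mul_assoc, hP.2]

/-- `tr (P phi Y) ≤ tr (P Y)` -/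
theorem trace_prj_phi_le {Y P : Matrix n n ℝ} (hY : Y.PosSemidef) (hP : Prj P) :
    (P * phi Y).trace ≤ (P * Y).trace :=
  trace_mul_le_right hP.psd (H804.phi_le_self hY)

/-- **the mixed term of the removed parts, without a cap on the second input** -/
theorem trace_mxp_le {X Y P : Matrix n n ℝ} (hX : X.PosSemidef) (hY : Y.PosSemidef) (hP : Prj P) :
    (P * X * P * phi Y).trace ≤ hs (P * X * P) * √(P * phi Y).trace := by
  refine (trace_prj_le (phi Y) hP hX).trans (mul_le_mul_of_nonneg_left ?_ (hs_nonneg _))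
  exact Real.le_sqrt_of_sq_le (hs_prj_phi_sq_le hY hP)

theorem trace_mxp_le' {X Y P : Matrix n n ℝ} (hX : X.PosSemidef) (hY : Y.PosSemidef)
    (hP : Prj P) :
    (P * X * P * phi Y).trace ≤ hs (P * X * P) * √(P * Y).trace :=
  (trace_mxp_le hX hY hP).trans
    (mul_le_mul_of_nonneg_left (Real.sqrt_le_sqrt (trace_prj_phi_le hY hP)) (hs_nonneg _))

theorem trace_mxp_nonneg {X Y P : Matrix n n ℝ} (hX : X.PosSemidef) (hY : Y.PosSemidef)
    (hP : Prj P) : 0 ≤ (P * X * P * phi Y).trace :=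
  trace_mul_nonneg (psd_conj_symm hX hP.1) (phi_psd hY)

end mat

/-- the energy of the product of the removed parts, the second input inside `phi` -/
def mxp (N : ℕ) (R S T : ℤ) (k : ℕ) (c : ℤ) (P : ℤ → ℤ → Matrix (Ix k) (Ix k) ℝ)
    (F H : ℤ → ℤ → ℝ) : ℝ :=
  (4 : ℝ) ^ k * ∑ m ∈ iv (N - k) S, ∑ n ∈ iv (N - k) R,
    if c - m - n ∈ iv (N - k) T ∧ P n m ≠ 0 then
      (P n m * Xg k k F n m * P n m * phi (Xg k k H (c - m - n) m)).trace else 0

/-- **change of the mixed energy**, `H` static, second input inside `phi` -/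
theorem Mk_mid' (N : ℕ) (R S T : ℤ) (k : ℕ) (c : ℤ) {P : ℤ → ℤ → Matrix (Ix k) (Ix k) ℝ}
    {F F' : ℤ → ℤ → ℝ} (H : ℤ → ℤ → ℝ) (hP : MidP N R S k P F F') {ε : ℝ} (hε : 0 < ε) :
    Mk N R S T k c F H ≤ Mk N R S T k c F' H
      + (ε * mxe N R S T k c P F' H + (1 + ε⁻¹) * mxp N R S T k c P F H) := by
  have key : ∑ m ∈ iv (N - k) S, ∑ n ∈ iv (N - k) R,
      (if c - m - n ∈ iv (N - k) T then
        (phi (Xg k k F n m) * phi (Xg k k H (c - m - n) m)).trace else 0)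
      ≤ ∑ m ∈ iv (N - k) S, ∑ n ∈ iv (N - k) R,
        ((if c - m - n ∈ iv (N - k) T then
          (phi (Xg k k F' n m) * phi (Xg k k H (c - m - n) m)).trace else 0)
        + (ε * (if c - m - n ∈ iv (N - k) T ∧ P n m ≠ 0 then
          (phi (Xg k k F' n m) * phi (Xg k k H (c - m - n) m)).trace else 0)
        + (1 + ε⁻¹) * (if c - m - n ∈ iv (N - k) T ∧ P n m ≠ 0 then
          (P n m * Xg k k F n m * P n m * phi (Xg k k H (c - m - n) m)).trace else 0))) := by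
    refine sum_le_sum fun m hm => sum_le_sum fun n hn => ?_
    by_cases hc : c - m - n ∈ iv (N - k) T
    · rw [if_pos hc, if_pos hc]
      by_cases h0 : P n m = 0
      · have e := hP.Xg_eq hn hm
        rw [h0, sub_zero, Matrix.one_mul, Matrix.mul_one] at e
        rw [if_neg (fun h => h.2 h0), if_neg (fun h => h.2 h0), e]
        simp
      · rw [if_pos ⟨hc, h0⟩, if_pos ⟨hc, h0⟩, hP.Xg_eq hn hm]
        have := trace_phi_split' (Xg_psd k k F n m) (hP n hn m hm).1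
          (phi_psd (Xg_psd k k H (c - m - n) m)) hε
        linarith
    · rw [if_neg hc, if_neg hc, if_neg (fun h => hc h.1), if_neg (fun h => hc h.1)]
      simp
  unfold Mk mxe mxp
  have h := mul_le_mul_of_nonneg_left key (by positivity : (0 : ℝ) ≤ 4 ^ k)
  refine h.trans (le_of_eq ?_)
  simp only [sum_add_distrib, ← mul_sum]
  ring

/-- `BF_mid_hs` with `mxp` -/
theorem BF_mid_hs' {N k : ℕ} (h : k ≤ N) (R S T : ℤ) (c : ℕ → ℤ)
    {P : ℤ → ℤ → Matrix (Ix k) (Ix k) ℝ} {F F' : ℤ → ℤ → ℝ} (H : ℤ → ℤ → ℝ)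
    (hP : MidP N R S k P F F') (hA : Agree N R S k (evP P) F F') {ε : ℝ} (hε : 0 < ε) :
    BF N R S T c k (F, H) ≤ BF N R S T c k (F', H)
      + (28 * ch N R S k 0 (evP P) F F' + 128 * chW N R S k (evP P) F F'
        + 2 * (ε * mxe N R S T k (c k) P F' H + (1 + ε⁻¹) * mxp N R S T k (c k) P F H)) := by
  have a1 := Mk_mid' N R S T k (c k) H hP hε
  have a2 := en_hs (r := 0) (by omega) R S hA
  have a3 := Wt_hs h R S hA
  rw [Nat.add_zero] at a2
  unfold BF
  simp only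
  linarith

/-- `sum_mnk_mid_hs` with `mxp` -/
theorem sum_mnk_mid_hs' {N : ℕ} (R S T : ℤ) {c : ℕ → ℤ} (hc : Pl c)
    {P : (k : ℕ) → ℤ → ℤ → Matrix (Ix k) (Ix k) ℝ} {Q Q' : ℕ → ℤ → ℤ → Prop}
    {F G H : ℕ → ℤ → ℤ → ℝ} {κ₃ κ' ε : ℝ}
    (hF : ∀ k < N, MidP N R S k (P k) (F (k + 1)) (G k))
    (hG : ∀ k < N, Agree N R S k (Q k) (G k) (F k)) (hH : Path N T S Q' H)
    (hF0 : F 0 = 0) (hH0 : H 0 = 0) (hε : 0 < ε)
    (h3 : ∀ k < N, CapX N R S k κ₃ (G k)) (hκ' : ∀ k < N, CapX N T S k κ' (H (k + 1))) :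
    ∑ k ∈ Icc 1 N, mnk N R S T k (c k) (F k) (H k)
      ≤ ∑ k ∈ range N, ((28 * ch N R S k 0 (evP (P k)) (F (k + 1)) (G k)
          + 128 * chW N R S k (evP (P k)) (F (k + 1)) (G k)
          + 2 * (ε * mxe N R S T k (c k) (P k) (G k) (H (k + 1))
            + (1 + ε⁻¹) * mxp N R S T k (c k) (P k) (F (k + 1)) (H (k + 1))))
        + (2 * mix N R S T k (c k) (Q k) (Q' k) (G k) (H (k + 1))
          + 540 * (κ₃ * sqQ N R S k (Q k) (G k))
          + 540 * (κ' * sqQ N T S k (Q' k) (H (k + 1))))) := by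
  refine sum_mnk_of_change R S T hc hF0 hH0 fun k hk' => ?_
  have a1 := BF_mid_hs' (k := k) (by omega) R S T c (H (k + 1)) (hF k hk') (hF k hk').agree hε
  have a2 := BF_change (k := k) (by omega) R S T c (hG k hk') (hH k hk') (h3 k hk') (hκ' k hk')
  linarith

/-! ### bounds of `mxp` -/

/-- the fourth power of the S4 norm of the removed part, summed over the events of a scale -/
def rm4 (N : ℕ) (R S : ℤ) (k : ℕ) (P : ℤ → ℤ → Matrix (Ix k) (Ix k) ℝ) (F : ℤ → ℤ → ℝ) : ℝ :=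
  4 ^ k * ∑ m ∈ iv (N - k) S, ∑ n ∈ iv (N - k) R,
    if P n m ≠ 0 then hs (P n m * Xg k k F n m * P n m) ^ 2 else 0

/-- mass of the directions of the events in the second input, on the plane -/
def rmH (N : ℕ) (R S T : ℤ) (k : ℕ) (c : ℤ) (P : ℤ → ℤ → Matrix (Ix k) (Ix k) ℝ)
    (H : ℤ → ℤ → ℝ) : ℝ :=
  4 ^ k * ∑ m ∈ iv (N - k) S, ∑ n ∈ iv (N - k) R,
    if c - m - n ∈ iv (N - k) T ∧ P n m ≠ 0 then
      (P n m * Xg k k H (c - m - n) m).trace else 0

theorem rm4_nonneg (N : ℕ) (R S : ℤ) (k : ℕ) (P : ℤ → ℤ → Matrix (Ix k) (Ix k) ℝ)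
    (F : ℤ → ℤ → ℝ) : 0 ≤ rm4 N R S k P F := by
  unfold rm4
  refine mul_nonneg (by positivity) (sum_nonneg fun m _ => sum_nonneg fun n _ => ?_)
  split_ifs
  · exact sq_nonneg _
  · exact le_rfl

theorem rmH_nonneg {N : ℕ} {R S T : ℤ} {k : ℕ} {c : ℤ}
    {P : ℤ → ℤ → Matrix (Ix k) (Ix k) ℝ} (hP : ∀ n ∈ iv (N - k) R, ∀ m ∈ iv (N - k) S, Prj (P n m))
    (H : ℤ → ℤ → ℝ) : 0 ≤ rmH N R S T k c P H := by
  unfold rmH
  refine mul_nonneg (by positivity) (sum_nonneg fun m hm => sum_nonneg fun n hn => ?_)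
  split_ifs
  · exact (hP n hn m hm).trace_nonneg (Xg_psd ..)
  · exact le_rfl

theorem mxp_nonneg {N : ℕ} {R S T : ℤ} {k : ℕ} {c : ℤ}
    {P : ℤ → ℤ → Matrix (Ix k) (Ix k) ℝ} (hP : ∀ n ∈ iv (N - k) R, ∀ m ∈ iv (N - k) S, Prj (P n m))
    (F H : ℤ → ℤ → ℝ) : 0 ≤ mxp N R S T k c P F H := by
  unfold mxp
  refine mul_nonneg (by positivity) (sum_nonneg fun m hm => sum_nonneg fun n hn => ?_)
  split_ifs
  · exact trace_mxp_nonneg (Xg_psd ..) (Xg_psd ..) (hP n hn m hm)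
  · exact le_rfl

/-- **the mixed charge is at most S4 of the removed part times the root of the mass in the same
directions of the second input** (any operator norm of `H`) -/
theorem mxp_le {N : ℕ} {R S T : ℤ} {k : ℕ} {c : ℤ}
    {P : ℤ → ℤ → Matrix (Ix k) (Ix k) ℝ} (hP : ∀ n ∈ iv (N - k) R, ∀ m ∈ iv (N - k) S, Prj (P n m))
    (F H : ℤ → ℤ → ℝ) :
    mxp N R S T k c P F H ≤ √(rm4 N R S k P F) * √(rmH N R S T k c P H) := by
  have h4 : (0 : ℝ) ≤ 4 ^ k := by positivity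
  have key : mxp N R S T k c P F H ≤
      ∑ m ∈ iv (N - k) S, ∑ n ∈ iv (N - k) R,
        √(4 ^ k * (if P n m ≠ 0 then hs (P n m * Xg k k F n m * P n m) ^ 2 else 0)) *
        √(4 ^ k * (if c - m - n ∈ iv (N - k) T ∧ P n m ≠ 0 then
          (P n m * Xg k k H (c - m - n) m).trace else 0)) := by
    unfold mxp
    rw [mul_sum]
    refine sum_le_sum fun m hm => ?_
    rw [mul_sum]
    refine sum_le_sum fun n hn => ?_
    by_cases h1 : c - m - n ∈ iv (N - k) T ∧ P n m ≠ 0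
    · rw [if_pos h1, if_pos h1, if_pos h1.2, Real.sqrt_mul h4, Real.sqrt_mul h4,
        Real.sqrt_sq (hs_nonneg _)]
      have h2 := trace_mxp_le' (Xg_psd k k F n m) (Xg_psd k k H (c - m - n) m) (hP n hn m hm)
      calc (4 : ℝ) ^ k * _ ≤ 4 ^ k * (hs (P n m * Xg k k F n m * P n m) *
            √(P n m * Xg k k H (c - m - n) m).trace) := mul_le_mul_of_nonneg_left h2 h4
        _ = √(4 ^ k) * √(4 ^ k) * (hs (P n m * Xg k k F n m * P n m) *
            √(P n m * Xg k k H (c - m - n) m).trace) := by rw [Real.mul_self_sqrt h4]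
        _ = _ := by ring
    · rw [if_neg h1, mul_zero]
      positivity
  refine key.trans ?_
  rw [← sum_product']
  refine (Real.sum_mul_le_sqrt_mul_sqrt _ _ _).trans (le_of_eq ?_)
  unfold rm4 rmH
  rw [mul_sum, mul_sum]
  simp only [mul_sum]
  rw [← sum_product', ← sum_product']
  congr 1
  · congr 1
    refine sum_congr rfl fun p _ => Real.sq_sqrt (mul_nonneg h4 ?_)
    split_ifs
    · exact sq_nonneg _
    · exact le_rfl
  · congr 1
    refine sum_congr rfl fun p hp => Real.sq_sqrt (mul_nonneg h4 ?_)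
    rw [mem_product] at hp
    split_ifs
    · exact (hP p.2 hp.2 p.1 hp.1).trace_nonneg (Xg_psd ..)
    · exact le_rfl

/-- scaling of the second input: `H = √μ C` -/
theorem rmH_smul (N : ℕ) (R S T : ℤ) (k : ℕ) (c : ℤ) (P : ℤ → ℤ → Matrix (Ix k) (Ix k) ℝ)
    {μ : ℝ} (hμ : 0 ≤ μ) (C : ℤ → ℤ → ℝ) :
    rmH N R S T k c P (fun x y => √μ * C x y) = μ * rmH N R S T k c P C := by
  unfold rmH
  rw [mul_left_comm]
  congr 1
  rw [mul_sum]
  refine sum_congr rfl fun m _ => ?_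
  rw [mul_sum]
  refine sum_congr rfl fun n _ => ?_
  rw [mul_ite, mul_zero, H958.Xg_smul k k hμ, Matrix.mul_smul, trace_smul, smul_eq_mul]

/-- sums over the scales -/
theorem sum_mxp_le {N : ℕ} {R S T : ℤ} {c : ℕ → ℤ} {P : (k : ℕ) → ℤ → ℤ → Matrix (Ix k) (Ix k) ℝ}
    (hP : ∀ k < N, ∀ n ∈ iv (N - k) R, ∀ m ∈ iv (N - k) S, Prj (P k n m))
    (F H : ℕ → ℤ → ℤ → ℝ) :
    ∑ k ∈ range N, mxp N R S T k (c k) (P k) (F k) (H k) ≤
      √(∑ k ∈ range N, rm4 N R S k (P k) (F k)) *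
        √(∑ k ∈ range N, rmH N R S T k (c k) (P k) (H k)) := by
  refine (sum_le_sum fun k hk => mxp_le (hP k (mem_range.1 hk)) (F k) (H k)).trans ?_
  refine (Real.sum_mul_le_sqrt_mul_sqrt _ _ _).trans (le_of_eq ?_)
  congr 1
  · congr 1
    exact sum_congr rfl fun k _ => Real.sq_sqrt (rm4_nonneg ..)
  · congr 1
    exact sum_congr rfl fun k hk => Real.sq_sqrt (rmH_nonneg (hP k (mem_range.1 hk)) _)

end

end Vale.Agent.P141.H555
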