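import Vale.Agent.P141.H834.Svd

/-!
# P141, CE, module M7 (Lev), file 1: the full singular value decomposition of a real matrix

`exists_svdF`: as `H834.exists_svd`, with the decomposition `M = ∑ s φ ψ`, both singular vector
equations, completeness of `φ`, and `ψ i = 0` where `s i = 0`.
-/

namespace Vale.Agent.P141.H555

open Finset Matrix
open Vale.Agent.P141.H834 (eig_orth eig_compl eig_eq)

noncomputable section

variable {X Y : Type*} [Fintype X] [Fintype Y] [DecidableEq X]

/-- **Singular value decomposition**, full version. -/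
theorem exists_svdF (M : X → Y → ℝ) : ∃ (s : X → ℝ) (φ : X → X → ℝ) (ψ : X → Y → ℝ),
    (∀ i, 0 ≤ s i) ∧
    (∀ i j, ∑ x, φ i x * φ j x = if i = j then 1 else 0) ∧
    (∀ x c, ∑ i, φ i x * φ i c = if x = c then 1 else 0) ∧
    (∀ i j, 0 < s i → ∑ y, ψ i y * ψ j y = if i = j then 1 else 0) ∧
    (∀ i, s i = 0 → ∀ y, ψ i y = 0) ∧
    (∀ i y, ∑ x, M x y * φ i x = s i * ψ i y) ∧
    (∀ i x, ∑ y, M x y * ψ i y = s i * φ i x) ∧
    (∀ x y, M x y = ∑ i, s i * (φ i x * ψ i y)) := by
  classical
  set A : Matrix X Y ℝ := Matrix.of M with hA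
  set G : Matrix X X ℝ := A * Aᵀ with hGd
  have hGe : ∀ x c, G x c = ∑ y, M x y * M c y := by
    intro x c
    rw [hGd, Matrix.mul_apply]
    rfl
  have hps : G.PosSemidef := by
    have := Matrix.posSemidef_self_mul_conjTranspose A
    rwa [Matrix.conjTranspose_eq_transpose_of_trivial] at this
  have hG : G.IsHermitian := hps.1
  set lam : X → ℝ := hG.eigenvalues with hlam
  have hlam0 : ∀ i, 0 ≤ lam i := fun i => hps.eigenvalues_nonneg i
  set φ : X → X → ℝ := fun i x => hG.eigenvectorBasis i x with hφ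
  have horth : ∀ i j, ∑ x, φ i x * φ j x = if i = j then 1 else 0 := fun i j => eig_orth hG i j
  have hcomp : ∀ x c, ∑ i, φ i x * φ i c = if x = c then 1 else 0 := fun x c => eig_compl hG x c
  have heig : ∀ i x, ∑ c, G x c * φ i c = lam i * φ i x := fun i x => eig_eq hG i x
  set m : X → Y → ℝ := fun i y => ∑ x, M x y * φ i x with hm
  set s : X → ℝ := fun i => √(lam i) with hs
  have hs0 : ∀ i, 0 ≤ s i := fun i => Real.sqrt_nonneg _
  have hs2 : ∀ i, s i ^ 2 = lam i := fun i => Real.sq_sqrt (hlam0 i)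
  -- the Gram matrix of the m
  have hmm : ∀ i j, ∑ y, m i y * m j y = if i = j then lam j else 0 := by
    intro i j
    have e1 : ∑ y, m i y * m j y = ∑ x, φ i x * ∑ c, G x c * φ j c := by
      simp only [hm, Finset.sum_mul_sum]
      rw [sum_comm]
      refine sum_congr rfl fun x _ => ?_
      rw [sum_comm, mul_sum]
      refine sum_congr rfl fun c _ => ?_
      rw [hGe, sum_mul, mul_sum]
      exact sum_congr rfl fun y _ => by ring
    rw [e1]
    have e2 : ∑ x, φ i x * ∑ c, G x c * φ j c = lam j * ∑ x, φ i x * φ j x := by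
      rw [mul_sum]
      refine sum_congr rfl fun x _ => ?_
      rw [heig]; ring
    rw [e2, horth]
    split_ifs <;> simp
  -- M transposed applied to m
  have hMm : ∀ i x, ∑ y, M x y * m i y = lam i * φ i x := by
    intro i x
    rw [← heig]
    simp only [hm, mul_sum]
    rw [sum_comm]
    refine sum_congr rfl fun c _ => ?_
    rw [hGe, sum_mul]
    exact sum_congr rfl fun y _ => by ring
  have hm0 : ∀ i, s i = 0 → ∀ y, m i y = 0 := by
    intro i hi y
    have h1 : ∑ y, m i y * m i y = 0 := by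
      rw [hmm, if_pos rfl, ← hs2, hi]; simp
    have h2 := (sum_eq_zero_iff_of_nonneg fun y _ => mul_self_nonneg (m i y)).1 h1 y (mem_univ _)
    exact mul_self_eq_zero.1 h2
  have hsm : ∀ i y, s i * ((s i)⁻¹ * m i y) = m i y := by
    intro i y
    rcases (hs0 i).eq_or_lt with h | h
    · rw [← h, hm0 i h.symm y, mul_zero, zero_mul]
    · rw [← mul_assoc, mul_inv_cancel₀ h.ne', one_mul]
  refine ⟨s, φ, fun i y => (s i)⁻¹ * m i y, hs0, horth, hcomp, ?_, ?_, ?_, ?_, ?_⟩
  · intro i j hi
    have e1 : ∑ y, (s i)⁻¹ * m i y * ((s j)⁻¹ * m j y) = (s i)⁻¹ * (s j)⁻¹ * ∑ y, m i y * m j y := by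
      rw [mul_sum]; exact sum_congr rfl fun y _ => by ring
    rw [e1, hmm]
    split_ifs with h
    · subst h
      rw [← hs2 i]
      field_simp
    · simp
  · intro i hi y
    show (s i)⁻¹ * m i y = 0
    rw [hm0 i hi y, mul_zero]
  · intro i y
    exact (hsm i y).symm
  · intro i x
    have e1 : ∑ y, M x y * ((s i)⁻¹ * m i y) = (s i)⁻¹ * (lam i * φ i x) := by
      rw [← hMm, mul_sum]
      exact sum_congr rfl fun y _ => by ring
    rw [e1, ← hs2]
    rcases (hs0 i).eq_or_lt with h | h
    · rw [← h]; simp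
    · field_simp
  · intro x y
    have e1 : ∀ i, s i * (φ i x * ((s i)⁻¹ * m i y)) = φ i x * m i y := by
      intro i
      rw [mul_left_comm, hsm]
    simp only [e1]
    have e2 : ∑ i, φ i x * m i y = ∑ c, M c y * ∑ i, φ i x * φ i c := by
      simp only [hm, mul_sum]
      rw [sum_comm]
      exact sum_congr rfl fun c _ => sum_congr rfl fun i _ => by ring
    rw [e2]
    simp only [hcomp]
    simp

end

end Vale.Agent.P141.H555
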